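import Vale.Agent.P106.U.S3.Props
import Vale.Agent.P106.U.H101.Low
import Vale.Agent.P106.U.H683.CellS
import Vale.Agent.P106.U.H785.Mtr

/-!
# P106 / U / S3 / F2 : the sums over the caps, as a field of the one-cap record (helper712)

ADDENDUM 4 (661), Decision 3 and rulings (137), 518 (H2), (J), (R5), 20289, 20355, 20357.
`R` = run at ONE cap `b = m b1` (matched: base = cap); later caps `bS` (old levels) and `bV` (young levels).
LEVELS (`lv R i = a i / m`) are split into * `Vs` : young levels (the index of the line advances soon, deep lag),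
* `Xs` : exceptional, * all others : old (plateau of the local word).

* `LTh C b i` = `MIC.Th C b i` (letter of the later step, with the digits of the slope in the phi regime), `LDk C b k` = cell of
  the step `k` with the digits of the slope in the phi regime.
* `At R p B d k i` : `i` is the a-step (last index) of the time level `a k + d m` (blocks), at most `B` unit steps after `k`.
* `Pf` : data: prefix letter `pf i` (class integers of all levels `≤ a i`, all revealed depths), numbers `gv` (precision `rk`)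
  and `gv0` (precision `rk0` = line precision at the first cap of the window, deep phi regime), `Ao v` : curvature of the line at
  the level `v`, to `B` blocks below the index (one variable along a run).
* `mt`, `mt0` : 785's `Mtd` of the run: letter and numbers of the cap; letter of the cap, numbers of the precision `rk0`.
  `ν = μ / 2`, offsets of kappa and gamma `o' 0`, `o' 1`.  Frozen paths `(mt ..).fz k k`, `(mt0 ..).fz k k`.
* `Ob R B o' k` : kappa of this line, to `B` blocks below the index.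
* **`F2`** : for every margin `m ≤ μ ≤ B` and constant `(100 K)^20 ≤ K' ≤ B` one choice of the offsets with the sums of `F2o`;
  right side `F2b = h / B + K' (d + 1)² (m + μ + 1) 2^-(μ/8) (n + J + 1)`.
-/

set_option autoImplicit false

namespace Vale.Agent.P106.U.S3

open Finset Vale.Agent.P127 Vale.Agent.P127.Stk Vale.Agent.P127.U Vale.Agent.P106.W
open Vale.Agent.P127.U.CellD (q2 rd Nb)
open Vale.Agent.P106.U.Cell (Pth Ray)
open Vale.Agent.P106.U.H101 (lc)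
open Vale.Agent.P106.U.H785.Mtr (Mtd)

section letters

variable {Ω τ : Type}

open Classical in
/-- letter of the later step `i` at the cap `b` (= `MIC.Th`) -/
noncomputable def LTh (C : Pth Ω τ) (b i : ℕ) (ω : Ω) : τ × ℤ :=
  (C.T i ω, if C.rf i ≤ b + C.rk i then fl1 (C.rf i) (H683.slR C i b ω + C.o 4) else 0)

open Classical in
/-- cell of the step `k`, with the digits of the slope in the phi regime (= `H683.Dp` there) -/
noncomputable def LDk (C : Pth Ω τ) (b k : ℕ) (ω : Ω) : (τ × Pth.Dg) × ℤ :=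
  (C.cell k b ω, if C.rf k ≤ b + C.rk k then fl1 (C.rf k) (H683.slR C k b ω + C.o 4) else 0)

end letters

variable {Ω : Type} [Fintype Ω] {τ υ π : Type}

/-- level of the index `i`, in blocks -/
def lv (R : Run Ω τ υ) (i : ℕ) : ℕ := R.C.a i / R.m

/-- `i` is the a-step of the time level which is `d` blocks after the level of `k`, at most `B` unit steps after `k` -/
def At (R : Run Ω τ υ) (p : Run.Num) (B d k i : ℕ) : Prop :=
  k < i ∧ i ≤ k + B ∧ i ≤ R.n + p.J ∧ R.C.a i = R.C.a k + d * R.m ∧ R.IsA i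

/-- kappa of the line of the ray side at the time of the step `k` -/
noncomputable def kaL (R : Run Ω τ υ) (k : ℕ) (ω : Ω) : ℝ := R.κ ω + R.al k ω * (R.tW ω - R.C.s k ω)

/-- the N-coefficient at the ray -/
noncomputable def unL (R : Run Ω τ υ) (ω : Ω) : ℝ := (R.FW ω).cN (R.C.l ω) (R.tW ω)

/-- the gamma number of 785's letter: N-coefficient at the ray plus kappa `w` plus curvature times the error of the rounded
position -/
noncomputable def uL (R : Run Ω τ υ) (o : Fin 7 → ℝ) (k : ℕ) (ω : Ω) : ℝ :=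
  unL R ω + kaL R k ω * (R.C.l ω).w + R.al k ω * ((R.C.l ω).N (R.C.s k ω) -
    ((fl1 (R.C.a k) ((R.C.l ω).N (R.C.s k ω) + o 2) : ℝ) / 2 ^ R.C.a k - o 2))

/-- digits of kappa, `B` blocks below the index -/
noncomputable def Ob (R : Run Ω τ υ) (B : ℕ) (o' : ℕ → ℝ) (k : ℕ) (ω : Ω) : ℤ :=
  fl1 (R.C.rk k + R.m * B) (kaL R k ω + o' 0)

/-- **data of the young levels** -/
structure Pf (R : Run Ω τ υ) (π : Type) where
  /-- the prefix letter -/
  pf : ℕ → Ω → π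
  /-- its number at the precision `rk`, at the precision `rk0` -/
  gv : ℕ → π → ℝ
  gv0 : ℕ → π → ℝ
  /-- precision of the line at the first cap of the window -/
  rk0 : ℕ → ℕ
  m0 : Monotone rk0
  l0 : ∀ i, rk0 i ≤ R.C.rk i
  /-- the curvature of the line, `B` blocks below the index, at the level `v` -/
  Ao : ℕ → Ω → ℝ

/-- 785's data, letter and numbers of the cap -/
noncomputable def mt (R : Run Ω τ υ) (F : Pf R π) (μ : ℕ) (o : Fin 7 → ℝ) (o' : ℕ → ℝ) : Mtd Ω π where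
  a := R.C.a
  rf := R.C.rf
  rk := R.C.rk
  ha := R.C.ha
  hf := R.C.hf
  hk := R.C.hk
  hkf := R.C.hkf
  μ := μ
  ν := μ / 2
  o := o
  oκ := o' 0
  oγ := o' 1
  l := R.C.l
  t := R.C.t
  p := R.C.p
  un := unL R
  κ := kaL R
  al := R.al
  pf := F.pf
  gv := F.gv

/-- 785's data, letter of the cap, numbers of the precision `rk0` (deep phi regime) -/
noncomputable def mt0 (R : Run Ω τ υ) (F : Pf R π) (μ : ℕ) (o : Fin 7 → ℝ) (o' : ℕ → ℝ) : Mtd Ω (π × ℤ × ℤ) where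
  a := R.C.a
  rf := R.C.rf
  rk := F.rk0
  ha := R.C.ha
  hf := R.C.hf
  hk := F.m0
  hkf := fun i => (F.l0 i).trans (R.C.hkf i)
  μ := μ
  ν := μ / 2
  o := o
  oκ := o' 0
  oγ := o' 1
  l := R.C.l
  t := R.C.t
  p := R.C.p
  un := unL R
  κ := kaL R
  al := R.al
  pf := fun i ω => (F.pf i ω, fl1 (R.C.rk i - μ / 2) (kaL R i ω + o' 0), fl1 (R.C.rk i - μ / 2) (uL R o i ω + o' 1))
  gv := fun i θ => F.gv0 i θ.1

/-- the exceptional events of a path at `(i, b)` -/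
noncomputable def exc (Q : Law Ω) {τ : Type} (C : Pth Ω τ) (K : ℝ) (i b : ℕ) : ℝ :=
  prE Q (C.Bad K i b) + prE Q (H420.BadS C K i b) + prE Q (H300.BadR C K i b)

/-- the right side of the sums -/
noncomputable def F2b (R : Run Ω τ υ) (p : Run.Num) (B μ : ℕ) (K' : ℝ) (d : ℕ) : ℝ :=
  R.h / B + K' * (d + 1) ^ 2 * (R.m + μ + 1) * q2 (μ / 8) * (R.n + p.J + 1)

open Classical in
/-- indices of the old levels -/
noncomputable def IdO (R : Run Ω τ υ) (Vs Xs : Finset ℕ) : Finset ℕ :=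
  (Icc 1 R.n).filter fun k => lv R k ∉ Vs ∧ lv R k ∉ Xs

open Classical in
/-- indices of the young levels, kappa regime -/
noncomputable def IdK (R : Run Ω τ υ) (Vs Xs : Finset ℕ) : Finset ℕ :=
  (Icc 1 R.n).filter fun k => lv R k ∈ Vs ∧ lv R k ∉ Xs ∧ R.m * R.b1 + R.C.rk k < R.C.rf k

open Classical in
/-- indices of the young levels, deep phi regime -/
noncomputable def IdP (R : Run Ω τ υ) (F : Pf R π) (B : ℕ) (Vs Xs : Finset ℕ) : Finset ℕ :=
  (Icc 1 R.n).filter fun k => lv R k ∈ Vs ∧ lv R k ∉ Xs ∧ R.C.rf k + 2 * (R.m * B) ≤ R.m * R.b1 + F.rk0 k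

open Classical in
/-- the pairs `(k, i)` -/
noncomputable def At' (R : Run Ω τ υ) (p : Run.Num) (B d k : ℕ) : Finset ℕ :=
  (range (R.n + p.J + 1)).filter (At R p B d k)

/-- **the sums over the caps**, for one margin `μ`, constant `K'`, offsets `o`, `o'` -/
structure F2o (R : Run Ω τ υ) (p : Run.Num) (B bS bV : ℕ) (F : Pf R π) (Vs Xs : Finset ℕ) (μ : ℕ) (K' : ℝ)
    (o : Fin 7 → ℝ) (o' : ℕ → ℝ) : Prop where
  o1 : (∀ k, 0 < o k ∧ o k ≤ 1) ∧ ∀ k, 0 < o' k ∧ o' k ≤ 1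
  /-- exceptional events of the path -/
  off : ∑ k ∈ range (R.n + p.J + 1), (exc R.Q (lc R.C μ o) K' k (R.m * R.b1) + exc R.Q (lc R.C μ o) K' k bS) ≤
    K' ^ 2 * (R.n + p.J + 1) * q2 (μ / 4)
  /-- exceptional events of the frozen paths -/
  offK : ∀ d ≤ B, ∑ k ∈ IdK R Vs Xs, (exc R.Q ((mt R F μ o o').fz k k) K' k (R.m * R.b1) +
    exc R.Q ((mt R F μ o o').fz k k) K' k bV + ∑ i ∈ At' R p B d k, exc R.Q ((mt R F μ o o').fz k k) K' i (R.m * R.b1)) ≤
    K' ^ 2 * (d + 1) ^ 2 * (R.n + p.J + 1) * q2 (μ / 4)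
  offP : ∀ d ≤ B, ∑ k ∈ IdP R F B Vs Xs, (exc R.Q ((mt0 R F μ o o').fz k k) K' k (R.m * R.b1) +
    exc R.Q ((mt0 R F μ o o').fz k k) K' k bV + ∑ i ∈ At' R p B d k, exc R.Q ((mt0 R F μ o o').fz k k) K' i (R.m * R.b1)) ≤
    K' ^ 2 * (d + 1) ^ 2 * (R.n + p.J + 1) * q2 (μ / 4)
  /-- exceptional events of kappa and gamma of the frozen letters -/
  offL : ∑ k ∈ range (R.n + 1), (prE R.Q (fun ω => Nb (R.C.rk k - μ / 2) (kaL R k ω + o' 0) (K' * q2 (R.C.rk k))) +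
    prE R.Q (fun ω => Nb (R.C.rk k - μ / 2) (uL R o k ω + o' 1) (K' * q2 (R.C.rk k)))) ≤
    K' ^ 2 * (R.n + p.J + 1) * q2 (μ / 4)
  /-- the letter of the path at the a-steps of the young levels, given the frozen letter -/
  jun : ∃ x : ℕ → ℝ, (∀ k, 0 ≤ x k) ∧ (∀ k ∈ Icc 1 R.n, lv R k ∈ Vs → lv R k ∉ Xs → R.IsA k →
    hc R.Q (R.C.T k) ((mt R F μ o o').lt k) ≤ K' * ((μ : ℝ) + R.m) + x k) ∧
    ∑ k ∈ range (R.n + 1), x k ≤ F2b R p B μ K' 0
  /-- old levels -/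
  S : ∀ d ≤ B, ∑ k ∈ IdO R Vs Xs, ∑ i ∈ At' R p B d k,
    mi R.Q (LTh (lc R.C μ o) (R.m * R.b1) i) ((lc R.C μ o).cell k bS) (LDk (lc R.C μ o) (R.m * R.b1) k) ≤
      F2b R p B μ K' d
  /-- young levels, kappa regime, time only -/
  V1 : ∀ d ≤ B, ∑ k ∈ IdK R Vs Xs, ∑ i ∈ At' R p B d k,
    mi R.Q (LTh ((mt R F μ o o').fz k k) (R.m * R.b1) i) (((mt R F μ o o').fz k k).cell k bV)
      (LDk ((mt R F μ o o').fz k k) (R.m * R.b1) k) ≤ F2b R p B μ K' d
  /-- young levels, deep phi regime, time and slope -/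
  P1 : ∀ d ≤ B, ∑ k ∈ IdP R F B Vs Xs, ∑ i ∈ At' R p B d k,
    mi R.Q (LTh ((mt0 R F μ o o').fz k k) (R.m * R.b1) i) (((mt0 R F μ o o').fz k k).cell k bV)
      (LDk ((mt0 R F μ o o').fz k k) (R.m * R.b1) k) ≤ F2b R p B μ K' d
  /-- young levels, kappa regime, with curvature and kappa of the line -/
  V2 : ∀ d ≤ B, ∑ k ∈ IdK R Vs Xs, ∑ i ∈ At' R p B d k,
    mi R.Q (LTh ((mt R F μ o o').fz k k) (R.m * R.b1) i)
      (fun ω => (((mt R F μ o o').fz k k).cell k bV ω, F.Ao (lv R k) ω, Ob R B o' k ω))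
      (LDk ((mt R F μ o o').fz k k) (R.m * R.b1) k) ≤ F2b R p B μ K' d

open Classical in
/-- **the field `f2` of the record** -/
structure F2 (R : Run Ω τ υ) (p : Run.Num) (K : ℝ) (B bS bV : ℕ) (F : Pf R π) (Vs Xs : Finset ℕ) : Prop where
  /-- the later caps -/
  loS : R.m * (R.b1 + B) ≤ bS
  loV : bS ≤ bV
  hi : bV ≤ p.B₁
  room : p.A' + 2 * bV + 8 * R.C.μ ≤ R.h
  /-- young levels have a deep lag and are diagonal -/
  deep : ∀ i, i ≤ R.n + p.J → lv R i ∈ Vs → R.C.rk i + R.m * (B + p.s) ≤ R.rI i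
  diag : ∀ i j, j ≤ R.n + p.J → R.IsA i → R.IsA j → R.C.a j = R.C.a i + R.m → (lv R i ∈ Vs ∨ lv R j ∈ Vs) →
    R.C.rk j = R.C.rk i + R.m
  /-- outside the exceptional levels every index is of one regime, with room up to the later cap: old levels .. -/
  regS : ∀ k, 1 ≤ k → k ≤ R.n → lv R k ∉ Vs → lv R k ∉ Xs →
    bS + R.C.rk k ≤ R.C.rf k ∨ R.C.rf k + 2 * (R.m * B) ≤ R.m * R.b1 + R.C.rk k
  /-- .. and young levels -/
  reg : ∀ k, 1 ≤ k → k ≤ R.n → lv R k ∈ Vs → lv R k ∉ Xs →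
    bV + R.C.rk k ≤ R.C.rf k ∨ R.C.rf k + 2 * (R.m * B) ≤ R.m * R.b1 + F.rk0 k
  /-- macroscopic runs, few exceptional levels -/
  runs : (R.m : ℝ) * (Vs.filter fun v => v + 1 ∉ Vs).card ≤ R.h / B
  xs : (R.m : ℝ) * Xs.card ≤ R.h / B
  /-- the prefix letter: function of `W'` and of the ray side, history, numbers -/
  pfW : ∀ i ≤ R.n + p.J, Fn R.Q (F.pf i) R.W'
  pfZ : ∀ i ≤ R.n + p.J, Fn R.Q (F.pf i) (R.Z i)
  pfT : ∀ i ≤ R.n + p.J, Fn R.Q (F.pf i) (R.C.T i)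
  pfH : ∀ i < R.n + p.J, Fn R.Q (F.pf i) (F.pf (i + 1))
  pfC : ∀ i ≤ R.n + p.J, Fn R.Q (fun ω => (R.C.F i ω).al) (F.pf i)
  gvA : ∀ i ≤ R.n + p.J, ∀ ω, 0 < R.Q.w ω → |R.al i ω - F.gv i (F.pf i ω)| * q2 (R.C.a i) ≤ K * q2 (R.C.rk i)
  gvF : ∀ i ≤ R.n + p.J, ∀ ω, 0 < R.Q.w ω → |(R.C.F i ω).al - F.gv i (F.pf i ω)| * q2 (R.C.a i) ≤ K * q2 (R.C.rk i)
  lo0 : ∀ i, R.r0 ≤ F.rk0 i
  gv0A : ∀ i ≤ R.n + p.J, ∀ ω, 0 < R.Q.w ω → |R.al i ω - F.gv0 i (F.pf i ω)| * q2 (R.C.a i) ≤ K * q2 (F.rk0 i)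
  /-- the curvature of the line -/
  aoA : ∀ k ≤ R.n + p.J, lv R k ∈ Vs → ∀ ω, 0 < R.Q.w ω →
    |R.al k ω - F.Ao (lv R k) ω| * q2 (R.C.a k) ≤ K * q2 (R.C.rk k + R.m * B)
  /-- one variable along a run, outside few cuts -/
  cut : ∃ Cu : Finset ℕ, (R.m : ℝ) * Cu.card ≤ R.h / B ∧ ∀ i j, i ≤ j → j ≤ R.n + p.J → lv R i ∈ Vs → lv R j ∈ Vs →
    lv R j ≤ lv R i + 1 → (lv R i = lv R j ∨ lv R i ∉ Cu) →
    Fn R.Q (F.pf j) (F.pf i) ∧ ∀ ω, 0 < R.Q.w ω → F.Ao (lv R j) ω = F.Ao (lv R i) ω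
  /-- the sums -/
  sum : ∀ μ ≤ B, R.m ≤ μ → ∀ K' : ℝ, (100 * K) ^ 20 ≤ K' → K' ≤ B → ∃ (o : Fin 7 → ℝ) (o' : ℕ → ℝ),
    F2o R p B bS bV F Vs Xs μ K' o o'

end Vale.Agent.P106.U.S3
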