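import Vale.Agent.P106.U.S3.Props
import Vale.Agent.P106.U.H712.Side

/-!
# P106 / U / S3 : few exceptional time steps (helper404)

* `cell_fn` : the cell is a function of its letter, of the ray and of the digits of the own slope.
* `Ok.cell_price`, `Ok.sum_mi` : price of the information of the cells about the next blocks (712's `Side`).
* `pGood : PGood`.
-/

set_option autoImplicit false

namespace Vale.Agent.P106.U.S3

open Finset Vale.Agent.P127 Vale.Agent.P127.Stk Vale.Agent.P127.U Vale.Agent.P106.W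
open Vale.Agent.P106.K (Ry RyOk bl Bin)
open Vale.Agent.P127.U.Mic (colp)
open Vale.Agent.P127.U.CellD (q2 rd)
open Vale.Agent.P106.U.Cell (Pth Ray)

/-- the cell is a function of its letter, of the ray and of the digits of the own slope -/
theorem cell_fn {Ω τ : Type} (C : Pth Ω τ) (i b : ℕ) {ω ω' : Ω} (hT : C.T i ω = C.T i ω') (hl : C.l ω = C.l ω')
    (hp : fl1 (C.rf i) (C.p ω) = fl1 (C.rf i) (C.p ω')) : C.cell i b ω = C.cell i b ω' := by
  have hs : C.s i ω = C.s i ω' := by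
    have h1 := C.htm i ω
    have h2 := C.htm i ω'
    rw [hT] at h1
    have h3 : fl1 (C.a i) (C.t ω) = fl1 (C.a i) (C.t ω') := h1.symm.trans h2
    show rd (C.a i) (C.t ω) = rd (C.a i) (C.t ω')
    unfold rd
    rw [h3]
  have hpp : rd (C.rf i) (C.p ω) = rd (C.rf i) (C.p ω') := by
    unfold rd
    rw [hp]
  have hF : C.F i ω = C.F i ω' := by
    unfold Pth.F
    rw [hT, hl, hpp]
  have hsl : C.sl i b ω = C.sl i b ω' := by
    unfold Pth.sl
    rw [hF, hl]
  have hZ : ∀ s, C.Zs b s ω = C.Zs b s ω' := by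
    intro s
    unfold Pth.Zs
    rw [hl]
  have hFr : ∀ m, C.Fr i b m ω = C.Fr i b m ω' := by
    intro m
    unfold Pth.Fr
    rw [hF, hsl, hl]
  unfold Pth.cell
  rw [hT]
  congr 1
  have hva : C.va i b ω = C.va i b ω' := by
    unfold Pth.va
    rw [hl, hs, hZ, hsl, hFr]
  unfold Pth.dg
  rw [hl, hva]

namespace Run

variable {Ω : Type} [Fintype Ω] {τ υ : Type} {R : Run Ω τ υ} {p : Num} {K c' g' gU : ℝ}

theorem Ok.cell_of (h : R.Ok p K c' g' gU) (b : ℕ) {i : ℕ} (hi : i ≤ R.n + p.J) :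
    Fn R.Q (R.C.cell i b) (fun ω => (R.C.T i ω, R.Z i ω)) := by
  intro ω ω' hω hω' e
  simp only [Prod.mk.injEq] at e
  refine cell_fn R.C i b e.1 ?_ (h.Uf i hi ω ω' hω hω' e.2)
  rw [h.Cl, h.Cl]
  have : R.ry ω = R.ry ω' := congrArg Prod.fst e.2
  rw [this]

/-- price of the next cell -/
theorem Ok.cell_price (h : R.Ok p K c' g' gU) (b : ℕ) {i : ℕ} (hi : i < R.n + p.J) :
    Stk.hc R.Q (R.C.cell (i + 1) b) (fun ω => (R.C.cell i b ω, R.Z (i + 1) ω)) ≤
      Stk.hc R.Q (R.C.T (i + 1)) (fun ω => (R.C.T i ω, R.Z (i + 1) ω)) := by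
  have h1 : Stk.hc R.Q (R.C.cell (i + 1) b) (fun ω => (R.C.cell i b ω, R.Z (i + 1) ω)) ≤
      Stk.hc R.Q (R.C.cell (i + 1) b) (fun ω => (R.C.T i ω, R.Z (i + 1) ω)) := by
    refine hc_mono_right R.Q _ ?_
    intro ω ω' _ _ e
    simp only [Prod.mk.injEq] at e ⊢
    exact ⟨congrArg Prod.fst e.1, e.2⟩
  have h2 := hc_le_add R.Q (R.C.cell (i + 1) b) (R.C.T (i + 1)) (fun ω => (R.C.T i ω, R.Z (i + 1) ω))
  have h3 : Stk.hc R.Q (R.C.cell (i + 1) b) (fun ω => (R.C.T (i + 1) ω, R.C.T i ω, R.Z (i + 1) ω)) = 0 := by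
    refine hc_zero R.Q ?_
    intro ω ω' hω hω' e
    simp only [Prod.mk.injEq] at e
    exact h.cell_of b (i := i + 1) (by omega) ω ω' hω hω' (Prod.ext e.1 e.2.2)
  linarith

theorem Ok.cell_zero (h : R.Ok p K c' g' gU) (b : ℕ) :
    Stk.hc R.Q (R.C.cell 0 b) (R.Z 0) ≤ Stk.hc R.Q (R.C.T 0) (R.Z 0) := by
  have h2 := hc_le_add R.Q (R.C.cell 0 b) (R.C.T 0) (R.Z 0)
  have h3 : Stk.hc R.Q (R.C.cell 0 b) (fun ω => (R.C.T 0 ω, R.Z 0 ω)) = 0 :=
    hc_zero R.Q (h.cell_of b (i := 0) (by omega))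
  linarith

/-- prices of the steps -/
noncomputable def pr (R : Run Ω τ υ) (i : ℕ) : ℝ := Stk.hc R.Q (R.C.T (i + 1)) (fun ω => (R.C.T i ω, R.Z (i + 1) ω))

theorem pr_nonneg (R : Run Ω τ υ) (i : ℕ) : 0 ≤ R.pr i := hc_nonneg R.Q _ _

theorem Ok.pr_sum (h : R.Ok p K c' g' gU) : Stk.hc R.Q (R.C.T 0) (R.Z 0) + ∑ i ∈ range (R.n + p.J), R.pr i ≤ g' := h.prT

theorem Ok.cell_le (h : R.Ok p K c' g' gU) (b : ℕ) {i : ℕ} (hi : i ≤ R.n + p.J) :
    Stk.hc R.Q (R.C.cell i b) (R.Z i) ≤ g' := by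
  have hZ : ∀ j < R.n + p.J, Fn R.Q (R.Z j) (R.Z (j + 1)) := fun j _ => h.Um j (j + 1) (Nat.le_succ j)
  have h1 := H712.Side.cost_win R.Q (C := fun i => R.C.cell i b) (Z := R.Z) hZ R.pr
    (fun j hj => h.cell_price b hj) (i := 0) (k := i) (m := i) (by omega) hi
  simp only [Nat.zero_add] at h1
  have h2 := hc_le_add R.Q (R.C.cell i b) (R.C.cell 0 b) (R.Z i)
  have h3 : Stk.hc R.Q (R.C.cell 0 b) (R.Z i) ≤ Stk.hc R.Q (R.C.cell 0 b) (R.Z 0) :=
    hc_mono_right R.Q _ (h.Um 0 i (Nat.zero_le i))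
  have h4 := h.cell_zero b
  have h5 : ∑ j ∈ range i, R.pr j ≤ ∑ j ∈ range (R.n + p.J), R.pr j :=
    Finset.sum_le_sum_of_subset_of_nonneg (by
      intro x hx
      rw [Finset.mem_range] at hx ⊢
      omega) fun j _ _ => R.pr_nonneg j
  have h6 := h.pr_sum
  linarith

theorem Ok.g'_nonneg (h : R.Ok p K c' g' gU) : 0 ≤ g' :=
  (hc_nonneg R.Q _ _).trans (h.cell_le 0 (i := 0) (Nat.zero_le _))

/-- the window sums -/
theorem Ok.win_le (h : R.Ok p K c' g' gU) (b : ℕ) {X : Type*} {Y : ℕ → Ω → X}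
    (hY : ∀ i < R.n, Fn R.Q (Y i) (R.Z (i + p.J))) :
    ∑ i ∈ range R.n, mi R.Q (Y i) (R.C.cell i b) (R.Z i) ≤ 2 * p.J * g' := by
  have hZ : ∀ j < R.n + p.J, Fn R.Q (R.Z j) (R.Z (j + 1)) := fun j _ => h.Um j (j + 1) (Nat.le_succ j)
  have h1 := H712.Side.sum_win_fn R.Q (C := fun i => R.C.cell i b) (Z := R.Z) (n := R.n) (J := p.J) hZ R.pr
    (fun j hj => h.cell_price b hj) hY
  have h2 : ∑ i ∈ range p.J, Stk.hc R.Q (R.C.cell i b) (R.Z i) ≤ p.J * g' := by
    calc ∑ i ∈ range p.J, Stk.hc R.Q (R.C.cell i b) (R.Z i) ≤ ∑ _i ∈ range p.J, g' :=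
          Finset.sum_le_sum fun i hi => h.cell_le b (by have := Finset.mem_range.1 hi; omega)
      _ = p.J * g' := by rw [Finset.sum_const, card_range, nsmul_eq_mul]
  have h3 : ∑ i ∈ range R.n, ∑ j ∈ range p.J, R.pr (i + j) ≤ p.J * g' := by
    rw [Finset.sum_comm]
    calc ∑ j ∈ range p.J, ∑ i ∈ range R.n, R.pr (i + j) ≤ ∑ _j ∈ range p.J, g' := by
          refine Finset.sum_le_sum fun j hj => ?_
          have hj' := Finset.mem_range.1 hj
          have e1 : ∑ i ∈ range R.n, R.pr (i + j) ≤ ∑ i ∈ range (R.n + p.J), R.pr i := by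
            have e2 : ∑ i ∈ range R.n, R.pr (i + j) = ∑ i ∈ (range R.n).map (addRightEmbedding j), R.pr i := by
              rw [Finset.sum_map]
              rfl
            rw [e2]
            refine Finset.sum_le_sum_of_subset_of_nonneg ?_ fun i _ _ => R.pr_nonneg i
            intro x hx
            rw [Finset.mem_map] at hx
            obtain ⟨y, hy, rfl⟩ := hx
            rw [Finset.mem_range] at hy ⊢
            show y + j < R.n + p.J
            omega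
          have e3 := h.pr_sum
          have e4 : 0 ≤ Stk.hc R.Q (R.C.T 0) (R.Z 0) := hc_nonneg R.Q _ _
          linarith
      _ = p.J * g' := by rw [Finset.sum_const, card_range, nsmul_eq_mul]
  linarith

open Classical in
/-- sum over the time steps -/
theorem Ok.sum_aS (h : R.Ok p K c' g' gU) (b : ℕ) {X : Type*} [Inhabited X] {Y : ℕ → Ω → X} (A : Finset ℕ)
    (hA : A ⊆ R.aS) (hY : ∀ i ∈ A, Fn R.Q (Y i) (R.Z (i + p.J))) :
    ∑ i ∈ A, mi R.Q (Y i) (R.C.cell i b) (R.Z i) ≤ 2 * p.J * g' := by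
  set Y' : ℕ → Ω → X := fun i ω => if i ∈ A then Y i ω else default with hY'
  have h1 := h.win_le b (Y := Y') (fun i hi ω ω' hω hω' e => by
    by_cases hi' : i ∈ A
    · simp only [hY', if_pos hi']
      exact hY i hi' ω ω' hω hω' e
    · simp only [hY', if_neg hi'])
  have h2 : ∑ i ∈ A, mi R.Q (Y i) (R.C.cell i b) (R.Z i) = ∑ i ∈ A, mi R.Q (Y' i) (R.C.cell i b) (R.Z i) := by
    refine Finset.sum_congr rfl fun i hi => ?_
    have h4 : Y' i = Y i := by
      funext ω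
      simp only [hY', if_pos hi]
    rw [h4]
  rw [h2]
  refine le_trans (Finset.sum_le_sum_of_subset_of_nonneg ?_ fun i _ _ => mi_nonneg R.Q _ _ _) h1
  intro x hx
  exact (Finset.mem_filter.1 (hA hx)).1

open Classical in
/-- the time blocks -/
theorem Ok.sum_tb (h : R.Ok p K c' g' gU) (b : ℕ) :
    ∑ i ∈ R.aS, mi R.Q (R.tb i) (R.C.cell i b) (R.Z i) ≤ g' := by
  have hJ := h.pth.J1
  set Y' : ℕ → Ω → ℤ := fun i ω => if R.IsA i then R.tb i ω else 0 with hY'
  have h0 := H712.Side.sum_time R.Q (C := fun i => R.C.cell i b) (Z := R.Z) (n := R.n)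
    (fun j _ => h.Um j (j + 1) (Nat.le_succ j)) R.pr (fun j hj => h.cell_price b (by omega)) (Y := Y')
    (fun i hi ω ω' hω hω' e => by
      by_cases hi' : R.IsA i
      · simp only [hY', if_pos hi']
        have h1 := h.Ut (i + 1) (by omega) ω ω' hω hω' e
        have h2 : R.C.a (i + 1) = R.C.a i + R.m := hi'
        simp only [h2] at h1
        exact h1
      · simp only [hY', if_neg hi'])
  have h2 : ∑ i ∈ R.aS, mi R.Q (R.tb i) (R.C.cell i b) (R.Z i) = ∑ i ∈ R.aS, mi R.Q (Y' i) (R.C.cell i b) (R.Z i) := by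
    refine Finset.sum_congr rfl fun i hi => ?_
    have h3 : R.IsA i := (Finset.mem_filter.1 hi).2
    have h4 : Y' i = R.tb i := by
      funext ω
      simp only [hY', if_pos h3]
    rw [h4]
  rw [h2]
  have h3 : ∑ i ∈ R.aS, mi R.Q (Y' i) (R.C.cell i b) (R.Z i) ≤ ∑ i ∈ range R.n, mi R.Q (Y' i) (R.C.cell i b) (R.Z i) :=
    Finset.sum_le_sum_of_subset_of_nonneg (Finset.filter_subset _ _) fun i _ _ => mi_nonneg R.Q _ _ _
  have h4 : ∑ i ∈ range R.n, R.pr i ≤ ∑ i ∈ range (R.n + p.J), R.pr i :=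
    Finset.sum_le_sum_of_subset_of_nonneg (by
      intro x hx
      rw [Finset.mem_range] at hx ⊢
      omega) fun j _ _ => R.pr_nonneg j
  have h5 := h.pr_sum
  have h6 := h.cell_zero b
  linarith

end Run

open Classical in
/-- **few exceptional time steps** -/
theorem pGood : PGood := by
  intro Ω _ τ υ R p K c' g' gU e κ₀ ε h hL hε hκ b
  set B1 := R.aS.filter fun i => ε < colp R.Q (R.tb i) (fun ω => (R.Z i ω, R.C.cell i b ω)) with hB1
  set B2 := (R.aF p).filter fun i => ε < colp R.Q (R.fb i) (fun ω => (R.Z i ω, R.C.cell i b ω)) with hB2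
  set B3 := R.aK.filter fun i => ¬ NoStrip R.Q R.tW R.κ (fun ω => (R.Z i ω, R.C.cell i b ω)) (q2 (R.rI i + R.m)) ε
    with hB3
  have hsub : R.bad p ε b ⊆ B1 ∪ (B2 ∪ B3) := by
    intro i hi
    obtain ⟨hi1, hi2⟩ := Finset.mem_filter.1 hi
    have hA : R.IsA i := (Finset.mem_filter.1 hi1).2
    by_contra hcon
    simp only [Finset.mem_union, not_or] at hcon
    obtain ⟨c1, c2, c3⟩ := hcon
    refine hi2 ⟨hA, ?_, ?_, ?_⟩
    · by_contra hx
      exact c1 (Finset.mem_filter.2 ⟨hi1, not_le.1 hx⟩)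
    · intro x1 x2
      by_contra hx
      exact c2 (Finset.mem_filter.2 ⟨Finset.mem_filter.2 ⟨hi1, x1, x2⟩, not_le.1 hx⟩)
    · intro x1
      by_contra hx
      exact c3 (Finset.mem_filter.2 ⟨Finset.mem_filter.2 ⟨hi1, x1⟩, hx⟩)
  have hcard : ((R.bad p ε b).card : ℝ) ≤ B1.card + (B2.card + B3.card) := by
    have h1 := (Finset.card_le_card hsub).trans ((Finset.card_union_le _ _).trans
      (Nat.add_le_add_left (Finset.card_union_le _ _) _))
    exact_mod_cast h1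
  have hF : R.aF p ⊆ R.aS := Finset.filter_subset _ _
  have hK : R.aK ⊆ R.aS := Finset.filter_subset _ _
  have k1 : (B1.card : ℝ) * ε ≤ e + κ₀ * g' := by
    have h1 := hL.time _ (fun i => R.C.cell i b)
    have h2 : (B1.card : ℝ) * ε ≤ ∑ i ∈ R.aS, colp R.Q (R.tb i) (fun ω => (R.Z i ω, R.C.cell i b ω)) := by
      calc (B1.card : ℝ) * ε = ∑ _i ∈ B1, ε := by rw [Finset.sum_const, nsmul_eq_mul]
        _ ≤ ∑ i ∈ B1, colp R.Q (R.tb i) (fun ω => (R.Z i ω, R.C.cell i b ω)) :=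
          Finset.sum_le_sum fun i hi => (Finset.mem_filter.1 hi).2.le
        _ ≤ _ := Finset.sum_le_sum_of_subset_of_nonneg (Finset.filter_subset _ _)
          fun i _ _ => Mic.colp_nonneg R.Q _ _
    have h3 := mul_le_mul_of_nonneg_left (h.sum_tb b) hκ
    linarith
  have k2 : (B2.card : ℝ) * ε ≤ e + κ₀ * (2 * p.J * g') := by
    have h1 := hL.phi _ (fun i => R.C.cell i b)
    have h2 : (B2.card : ℝ) * ε ≤ ∑ i ∈ R.aF p, colp R.Q (R.fb i) (fun ω => (R.Z i ω, R.C.cell i b ω)) := by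
      calc (B2.card : ℝ) * ε = ∑ _i ∈ B2, ε := by rw [Finset.sum_const, nsmul_eq_mul]
        _ ≤ ∑ i ∈ B2, colp R.Q (R.fb i) (fun ω => (R.Z i ω, R.C.cell i b ω)) :=
          Finset.sum_le_sum fun i hi => (Finset.mem_filter.1 hi).2.le
        _ ≤ _ := Finset.sum_le_sum_of_subset_of_nonneg (Finset.filter_subset _ _)
          fun i _ _ => Mic.colp_nonneg R.Q _ _
    have h3 := mul_le_mul_of_nonneg_left (h.sum_aS b (Y := R.fb) (R.aF p) hF (fun i hi => by
      obtain ⟨c1, c2, c3⟩ := Finset.mem_filter.1 hi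
      obtain ⟨d1, d2⟩ := Finset.mem_filter.1 c1
      exact h.Jf i (Finset.mem_range.1 d1) d2 c2 c3)) hκ
    linarith
  have k3 : (B3.card : ℝ) * ε ≤ e + κ₀ * (2 * p.J * g') := by
    -- the lines which violate the bound
    have hex : ∀ i, ∃ x : ((Ry × υ) × (τ × Pth.Dg)) → ℝ × ℝ, i ∈ B3 →
        ε < prE R.Q (fun ω => |R.κ ω - ((x (R.Z i ω, R.C.cell i b ω)).1 +
          (x (R.Z i ω, R.C.cell i b ω)).2 * R.tW ω)| ≤ q2 (R.rI i + R.m)) := by
      intro i
      by_cases hi : i ∈ B3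
      · have h1 := (Finset.mem_filter.1 hi).2
        unfold NoStrip at h1
        push Not at h1
        obtain ⟨x, hx⟩ := h1
        exact ⟨x, fun _ => hx⟩
      · exact ⟨fun _ => (0, 0), fun h' => absurd h' hi⟩
    choose x hx using hex
    have h1 := hL.line _ (fun i => R.C.cell i b) x
    have h2 : (B3.card : ℝ) * ε ≤ ∑ i ∈ R.aK, prE R.Q (fun ω => |R.κ ω - ((x i (R.Z i ω, R.C.cell i b ω)).1 +
          (x i (R.Z i ω, R.C.cell i b ω)).2 * R.tW ω)| ≤ q2 (R.rI i + R.m)) := by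
      calc (B3.card : ℝ) * ε = ∑ _i ∈ B3, ε := by rw [Finset.sum_const, nsmul_eq_mul]
        _ ≤ ∑ i ∈ B3, prE R.Q (fun ω => |R.κ ω - ((x i (R.Z i ω, R.C.cell i b ω)).1 +
          (x i (R.Z i ω, R.C.cell i b ω)).2 * R.tW ω)| ≤ q2 (R.rI i + R.m)) :=
          Finset.sum_le_sum fun i hi => (hx i hi).le
        _ ≤ _ := Finset.sum_le_sum_of_subset_of_nonneg (Finset.filter_subset _ _)
          fun i _ _ => Finset.sum_nonneg fun ω _ => R.Q.nn ω
    have h3 := mul_le_mul_of_nonneg_left (h.sum_aS b (Y := R.V) R.aK hK (fun i hi => by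
      obtain ⟨c1, c2⟩ := Finset.mem_filter.1 hi
      obtain ⟨d1, d2⟩ := Finset.mem_filter.1 c1
      exact h.JV i (Finset.mem_range.1 d1) d2 c2)) hκ
    linarith
  have key : ((R.bad p ε b).card : ℝ) * ε ≤ (B1.card + (B2.card + B3.card)) * ε :=
    mul_le_mul_of_nonneg_right hcard hε.le
  calc ((R.bad p ε b).card : ℝ) * ε ≤ (B1.card + (B2.card + B3.card)) * ε := key
    _ = B1.card * ε + (B2.card * ε + B3.card * ε) := by ring
    _ ≤ (e + κ₀ * g') + ((e + κ₀ * (2 * p.J * g')) + (e + κ₀ * (2 * p.J * g'))) :=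
      add_le_add k1 (add_le_add k2 k3)
    _ = 3 * e + κ₀ * ((4 * p.J + 1) * g') := by ring

end Vale.Agent.P106.U.S3
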