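import Vale.Agent.P106.U.S5.Run
import Vale.Agent.P106.U.H661.Ext
import Vale.Agent.P106.U.S3.Good

/-!
# P106 / U / S3 : a run whose letter contains a further letter (helper404)

* `extC C X hX` = 661's `ext C X hX` : the path with the letter `(C.T i, X i)`; levels, numbers, functionals unchanged (by `rfl`).
* `Run.ext R X hX` : the run with this path;  `Run.Path.ext`, `Run.Ok.ext` (same prices), `Run.Light.ext`, `Run.Cap.ext`,
  `Run.SwF.ext`, `swF_ext`.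
* `extC_cell_iff` : the cell is the old cell and the further letter.
-/

set_option autoImplicit false

namespace Vale.Agent.P106.U.S3

open Finset Vale.Agent.P127 Vale.Agent.P127.Stk Vale.Agent.P127.U Vale.Agent.P106.W
open Vale.Agent.P106.K (Ry RyOk bl Bin)
open Vale.Agent.P127.U.Mic (colp)
open Vale.Agent.P127.U.CellD (q2 rd)
open Vale.Agent.P106.U.Cell (Pth Ray)

/-- the path with a further letter (helper661) -/
noncomputable abbrev extC {Ω τ ξ : Type} (C : Pth Ω τ) (X : ℕ → Ω → ξ)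
    (hX : ∀ i ω ω', X (i + 1) ω = X (i + 1) ω' → X i ω = X i ω') : Pth Ω (τ × ξ) := H661.Ext.ext C X hX

namespace Run

variable {Ω : Type} [Fintype Ω] {τ υ ξ : Type}

/-- **the run with a further letter** -/
noncomputable def ext (R : Run Ω τ υ) (X : ℕ → Ω → ξ) (hX : ∀ i ω ω', X (i + 1) ω = X (i + 1) ω' → X i ω = X i ω') :
    Run Ω (τ × ξ) υ where
  m := R.m
  L := R.L
  h := R.h
  q := R.q
  r0 := R.r0
  P := R.P
  Q := R.Q
  pw := R.pw
  ry := R.ry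
  t := R.t
  W := R.W
  θ := R.θ
  FW := R.FW
  C := extC R.C X hX
  U := R.U
  rI := R.rI
  al := R.al
  V := R.V
  n := R.n
  b1 := R.b1
  W' := R.W'

variable {R : Run Ω τ υ} {X : ℕ → Ω → ξ} {hX : ∀ i ω ω', X (i + 1) ω = X (i + 1) ω' → X i ω = X i ω'}
  {p : Num} {K c' g' gU e κ₀ ε : ℝ}

theorem Path.ext (h : R.Path p) : (R.ext X hX).Path p where
  m1 := h.m1
  J1 := h.J1
  a0 := h.a0
  f0 := h.f0
  k0 := h.k0
  stp := h.stp
  mI := h.mI
  leI := h.leI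
  stop := h.stop
  fin := h.fin
  leF := h.leF
  rA := h.rA
  rA' := h.rA'
  rF := h.rF
  rK := h.rK
  advF := h.advF
  advK := h.advK
  diag := h.diag
  jump := h.jump

omit [Fintype Ω] in
theorem extC_F (C : Pth Ω τ) : (extC C X hX).F = C.F := rfl

omit [Fintype Ω] in
theorem extC_Ok {ω : Ω} {C : Pth Ω τ} (h : C.Ok K ω) : (extC C X hX).Ok K ω where
  v1 := h.v1
  w1 := h.w1
  p1 := h.p1
  n1 := h.n1
  n2 := h.n2
  k1 := h.k1
  a1 := h.a1
  ag := h.ag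

/-- **`Run.Ok` for the run with a further letter**, same prices -/
theorem Ok.ext (h : R.Ok p K c' g' gU) (h1 : ∀ i ≤ R.n + p.J, Fn R.Q (X i) R.W')
    (h2 : ∀ i ≤ R.n + p.J, Fn R.Q (X i) (R.Z i)) : (R.ext X hX).Ok p K c' g' gU where
  pth := Path.ext h.pth
  sys := h.sys
  pos := h.pos
  dom := h.dom
  Cl := h.Cl
  Ct := h.Ct
  FWf := h.FWf
  FWW := h.FWW
  FWn := h.FWn
  Cp := h.Cp
  ok := fun ω hω => extC_Ok (hX := hX) (h.ok ω hω)
  agW := h.agW
  alW := h.alW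
  W0 := h.W0
  prW := h.prW
  fnT := fun i hi ω ω' hω hω' e => Prod.ext (h.fnT i hi ω ω' hω hω' e) (h1 i hi ω ω' hω hω' e)
  Um := h.Um
  Ut := h.Ut
  Uf := h.Uf
  Ua := h.Ua
  Jf := h.Jf
  JV := h.JV
  alB := h.alB
  alD := h.alD
  lin := h.lin
  kno := h.kno
  unk := h.unk
  prT := by
    refine le_trans (add_le_add ?_ (Finset.sum_le_sum fun i hi => ?_)) h.prT
    · have e1 : Stk.hc R.Q (fun ω => (R.C.T 0 ω, X 0 ω)) (R.Z 0) =
          Stk.hc R.Q (R.C.T 0) (R.Z 0) + Stk.hc R.Q (X 0) (fun ω => (R.C.T 0 ω, R.Z 0 ω)) := hc_pair R.Q _ _ _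
      have e2 : Stk.hc R.Q (X 0) (fun ω => (R.C.T 0 ω, R.Z 0 ω)) = 0 :=
        hc_zero R.Q fun ω ω' hω hω' e => h2 0 (Nat.zero_le _) ω ω' hω hω' (congrArg Prod.snd e)
      show Stk.hc R.Q (fun ω => (R.C.T 0 ω, X 0 ω)) (R.Z 0) ≤ _
      rw [e1, e2, add_zero]
    · have hi' : i < R.n + p.J := mem_range.1 hi
      have e1 : Stk.hc R.Q (fun ω => (R.C.T (i + 1) ω, X (i + 1) ω)) (fun ω => ((R.C.T i ω, X i ω), R.Z (i + 1) ω)) =
          Stk.hc R.Q (R.C.T (i + 1)) (fun ω => ((R.C.T i ω, X i ω), R.Z (i + 1) ω)) +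
            Stk.hc R.Q (X (i + 1)) (fun ω => (R.C.T (i + 1) ω, ((R.C.T i ω, X i ω), R.Z (i + 1) ω))) :=
        hc_pair R.Q _ _ _
      have e2 : Stk.hc R.Q (X (i + 1)) (fun ω => (R.C.T (i + 1) ω, ((R.C.T i ω, X i ω), R.Z (i + 1) ω))) = 0 :=
        hc_zero R.Q fun ω ω' hω hω' e => h2 (i + 1) (by omega) ω ω' hω hω'
          (congrArg Prod.snd (congrArg Prod.snd e))
      have e3 : Stk.hc R.Q (R.C.T (i + 1)) (fun ω => ((R.C.T i ω, X i ω), R.Z (i + 1) ω)) ≤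
          Stk.hc R.Q (R.C.T (i + 1)) (fun ω => (R.C.T i ω, R.Z (i + 1) ω)) :=
        hc_mono_right R.Q _ fun ω ω' _ _ e => by
          simp only [Prod.mk.injEq] at e ⊢
          exact ⟨e.1.1, e.2⟩
      show Stk.hc R.Q (fun ω => (R.C.T (i + 1) ω, X (i + 1) ω)) (fun ω => ((R.C.T i ω, X i ω), R.Z (i + 1) ω)) ≤ _
      rw [e1, e2, add_zero]
      exact e3
  prU := h.prU

theorem Light.ext (h : R.Light p e κ₀) : (R.ext X hX).Light p e κ₀ where
  time := h.time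
  phi := h.phi
  line := h.line

theorem Cap.ext {B : ℕ} (h : R.Cap p B ε) : (R.ext X hX).Cap p B ε where
  low := h.low
  top := h.top
  room := h.room
  act := h.act

theorem SwF.ext {a1 r1 : ℕ} (h : R.SwF a1 r1 K) : (R.ext X hX).SwF a1 r1 K where
  p := h.p
  κ := h.κ

theorem swF_ext {a1 r1 : ℕ} (h : S5.SwF R K a1 r1) : S5.SwF (R.ext X hX) K a1 r1 where
  p := h.p
  ka := h.ka

end Run

/-- the cell with the further letter -/
theorem extC_cell_iff {Ω τ ξ : Type} (C : Pth Ω τ) (X : ℕ → Ω → ξ)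
    (hX : ∀ i ω ω', X (i + 1) ω = X (i + 1) ω' → X i ω = X i ω') (i b : ℕ) (ω ω' : Ω) :
    (extC C X hX).cell i b ω = (extC C X hX).cell i b ω' ↔ C.cell i b ω = C.cell i b ω' ∧ X i ω = X i ω' := by
  show ((C.T i ω, X i ω), C.dg i b ω) = ((C.T i ω', X i ω'), C.dg i b ω') ↔
    (C.T i ω, C.dg i b ω) = (C.T i ω', C.dg i b ω') ∧ X i ω = X i ω'
  simp only [Prod.mk.injEq]
  tauto

end Vale.Agent.P106.U.S3
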