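import Vale.Agent.P106.U.Cell

/-!
# P106 / U / S3 : the letter of the cell (helper785, after helper661's note 18866)

From the functional `FW` of the end label `W` (normalised, written at the time `tW`), the point `(Xc, Nc)` of
the label and the slopes in time `gA i` (modes of the curvature of the line of the state `i` given `W'`), the
path of cells `Cell.Pth` :

* `G i` : `FW` with the curvature replaced by `gA i`, through the same point; `Gs i` : the same at the time `s i`.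
* letter `T i` = list of `(fl1 (a j) t, aN j, kN j, gN j)`, `j ≤ i` : time, curvature, kappa, gamma numerators;
  precision `rk j` (`2^-a * curvature`, kappa, gamma), gamma rounded after the correction by the curvature error
  times the position (rounded to `a j` digits); roundings of kappa, gamma, position with the offsets `oK oG oN`
  (default 0; generic offsets: helper101's TNest).
* `pth : Pth Ω (List (ℤ × ℤ × ℤ × ℤ))`; `T_congr` : the letter is a function of `(FW, tW, Nc, gA, fl1 (a j) t)`.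
* `Hy K h ω` : hypotheses; `ok : (pth).Ok (18 K²) ω`; `agW` : the functional of step `i` agrees with `FW`
  on the ball of level `h` (COMPATIBILITY hypothesis `gW`).
* `al_near ka_near ga_near` : the three numbers against data of the ray: for helper465's file.
* `inv_eq` : `cN² + cV² = ga² + ph² - 2 ka gd - 2 al g`.
-/

set_option autoImplicit false

namespace Vale.Agent.P106.U.S3.PthW

open Finset Vale.Agent.P127 Vale.Agent.P127.Stk
open Vale.Agent.P127.U.CellD (q2 rd Nb q2_pos q2_le rd_err q2_mul_pow)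
open Vale.Agent.P106.U.Cell

/-! ### the invariant -/

/-- **the invariant of a functional** -/
theorem inv_eq (F : Fu) (l : Ray) (s : ℝ) : F.cN l s ^ 2 + F.cV l s ^ 2 =
    F.ga ^ 2 + F.ph ^ 2 - 2 * F.ka * F.gd l s - 2 * F.al * F.g l s := by
  unfold Fu.cN Fu.cV Fu.gd Fu.g
  ring

/-- the functional with the curvature `al + d`, through the point with coordinates `X, N` at the time at which
it is written -/
def bend (F : Fu) (d X N : ℝ) : Fu := ⟨F.ga + d * N, F.ph - d * X, F.ka, F.al + d⟩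

theorem bend_cN (F : Fu) (d X N : ℝ) (l : Ray) (s : ℝ) :
    (bend F d X N).cN l s = F.cN l s - d * (l.N s - N) := by
  unfold bend Fu.cN; ring

theorem bend_cV (F : Fu) (d X N : ℝ) (l : Ray) (s : ℝ) :
    (bend F d X N).cV l s = F.cV l s + d * (l.X s - X) := by
  unfold bend Fu.cV; ring

/-- value : up to a constant, the change is quadratic in the distance to the point -/
theorem bend_g (F : Fu) (d X N : ℝ) (l : Ray) (s : ℝ) : (bend F d X N).g l s =
    F.g l s + d * ((X ^ 2 + N ^ 2) / 2) - d * (((l.X s - X) ^ 2 + (l.N s - N) ^ 2) / 2) := by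
  unfold bend Fu.g; ring

/-- derivative : up to a constant, the change is `d` times the null coordinate from the point `(X, N, Z)` -/
theorem bend_gd (F : Fu) (d X N Z : ℝ) (l : Ray) (s : ℝ) : (bend F d X N).gd l s =
    F.gd l s + d * Z + d * (l.Z s - Z - (l.X s - X) * l.v - (l.N s - N) * l.w) := by
  unfold bend Fu.gd; ring

/-! ### the letter -/

/-- input of the letter -/
structure Inp (Ω : Type) where
  /-- digits of the time known at step `i` -/
  a : ℕ → ℕ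
  /-- digits of the own slope known at step `i` -/
  rf : ℕ → ℕ
  /-- digits of the line (second path) known at step `i` -/
  rk : ℕ → ℕ
  ha : Monotone a
  hf : Monotone rf
  hk : Monotone rk
  hkf : ∀ i, rk i ≤ rf i
  /-- margin -/
  μ : ℕ
  /-- offsets -/
  o : Fin 7 → ℝ
  /-- the ray -/
  l : Ω → Ray
  /-- the time -/
  t : Ω → ℝ
  /-- own slope -/
  p : Ω → ℝ
  /-- functional of the end label, written at the time `tW` -/
  FW : Ω → Fu
  /-- time of the end label -/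
  tW : Ω → ℝ
  /-- point of the end label -/
  Xc : Ω → ℝ
  /-- point of the end label -/
  Nc : Ω → ℝ
  /-- slope in time of step `i` -/
  gA : ℕ → Ω → ℝ
  /-- offsets of the roundings of kappa, of gamma, of the position `Nc` (generic, chosen once) -/
  oK : ℝ := 0
  oG : ℝ := 0
  oN : ℝ := 0

namespace Inp

variable {Ω : Type} (D : Inp Ω)

/-- rounded time -/
noncomputable def s (i : ℕ) (ω : Ω) : ℝ := rd (D.a i) (D.t ω)

/-- change of the curvature -/
def de (i : ℕ) (ω : Ω) : ℝ := D.gA i ω - (D.FW ω).al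

/-- functional of step `i` (not rounded), written at the time `tW` -/
def G (i : ℕ) (ω : Ω) : Fu := bend (D.FW ω) (D.de i ω) (D.Xc ω) (D.Nc ω)

/-- functional of step `i` (not rounded), written at the rounded time of step `i` -/
noncomputable def Gs (i : ℕ) (ω : Ω) : Fu := (D.G i ω).sh (D.s i ω - D.tW ω)

/-- numerator of the curvature -/
noncomputable def aN (i : ℕ) (ω : Ω) : ℤ := fl1 (D.rk i) (D.gA i ω * q2 (D.a i))

/-- the rounded curvature -/
noncomputable def al' (i : ℕ) (ω : Ω) : ℝ := 2 ^ D.a i * ((D.aN i ω : ℝ) / 2 ^ D.rk i)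

/-- kappa at the rounded time -/
noncomputable def kR (i : ℕ) (ω : Ω) : ℝ := (D.FW ω).ka - (D.s i ω - D.tW ω) * D.gA i ω

/-- numerator of kappa -/
noncomputable def kN (i : ℕ) (ω : Ω) : ℤ := fl1 (D.rk i) (D.kR i ω + D.oK)

/-- the rounded kappa -/
noncomputable def ka' (i : ℕ) (ω : Ω) : ℝ := (D.kN i ω : ℝ) / 2 ^ D.rk i - D.oK

/-- the rounded reference position -/
noncomputable def Nr' (i : ℕ) (ω : Ω) : ℝ := rd (D.a i) (D.Nc ω + D.oN) - D.oN

/-- gamma, corrected by the error of the curvature -/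
noncomputable def gR (i : ℕ) (ω : Ω) : ℝ :=
  (D.FW ω).ga + D.de i ω * D.Nc ω + (D.al' i ω - D.gA i ω) * D.Nr' i ω

/-- numerator of gamma -/
noncomputable def gN (i : ℕ) (ω : Ω) : ℤ := fl1 (D.rk i) (D.gR i ω + D.oG)

/-- the rounded gamma -/
noncomputable def ga' (i : ℕ) (ω : Ω) : ℝ := (D.gN i ω : ℝ) / 2 ^ D.rk i - D.oG

/-- the record of step `i` -/
noncomputable def rc (i : ℕ) (ω : Ω) : ℤ × ℤ × ℤ × ℤ :=
  (fl1 (D.a i) (D.t ω), D.aN i ω, D.kN i ω, D.gN i ω)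

/-- **the letter** : the history of the records, newest first -/
noncomputable def T : ℕ → Ω → List (ℤ × ℤ × ℤ × ℤ)
  | 0, ω => [D.rc 0 ω]
  | i + 1, ω => D.rc (i + 1) ω :: T i ω

/-- the newest record of a letter -/
def hd (θ : List (ℤ × ℤ × ℤ × ℤ)) : ℤ × ℤ × ℤ × ℤ := θ.headD (0, 0, 0, 0)

@[simp] theorem hd_T (i : ℕ) (ω : Ω) : hd (D.T i ω) = D.rc i ω := by
  cases i <;> rfl

theorem T_nest (i : ℕ) (ω ω' : Ω) (h : D.T (i + 1) ω = D.T (i + 1) ω') : D.T i ω = D.T i ω' :=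
  (List.cons.inj h).2

theorem T_anti {i j : ℕ} (hij : i ≤ j) {ω ω' : Ω} (h : D.T j ω = D.T j ω') : D.T i ω = D.T i ω' := by
  induction j, hij using Nat.le_induction with
  | base => exact h
  | succ j _ ih => exact ih (D.T_nest j ω ω' h)

theorem rc_of_T {i : ℕ} {ω ω' : Ω} (h : D.T i ω = D.T i ω') : D.rc i ω = D.rc i ω' := by
  rw [← D.hd_T, ← D.hd_T, h]

/-- the letter is the history of the records -/
theorem T_eq_iff (i : ℕ) (ω ω' : Ω) : D.T i ω = D.T i ω' ↔ ∀ j ≤ i, D.rc j ω = D.rc j ω' := by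
  constructor
  · exact fun h j hj => D.rc_of_T (D.T_anti hj h)
  · intro h
    induction i with
    | zero =>
      show [D.rc 0 ω] = [D.rc 0 ω']
      rw [h 0 le_rfl]
    | succ i ih =>
      show D.rc (i + 1) ω :: D.T i ω = D.rc (i + 1) ω' :: D.T i ω'
      rw [h (i + 1) le_rfl, ih fun j hj => h j (by omega)]

/-- **the path** -/
noncomputable def pth : Pth Ω (List (ℤ × ℤ × ℤ × ℤ)) where
  a := D.a
  rf := D.rf
  rk := D.rk
  ha := D.ha
  hf := D.hf
  hk := D.hk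
  hkf := D.hkf
  μ := D.μ
  o := D.o
  l := D.l
  t := D.t
  p := D.p
  T := D.T
  tm := fun _ θ => (hd θ).1
  ga := fun i θ => ((hd θ).2.2.2 : ℝ) / 2 ^ D.rk i - D.oG
  ka := fun i θ => ((hd θ).2.2.1 : ℝ) / 2 ^ D.rk i - D.oK
  al := fun i θ => 2 ^ D.a i * (((hd θ).2.1 : ℝ) / 2 ^ D.rk i)
  hT := D.T_nest
  htm := fun i ω => by rw [D.hd_T]; rfl

@[simp] theorem pth_a : D.pth.a = D.a := rfl
@[simp] theorem pth_rf : D.pth.rf = D.rf := rfl
@[simp] theorem pth_rk : D.pth.rk = D.rk := rfl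
@[simp] theorem pth_μ : D.pth.μ = D.μ := rfl
@[simp] theorem pth_l : D.pth.l = D.l := rfl
@[simp] theorem pth_t : D.pth.t = D.t := rfl
@[simp] theorem pth_p : D.pth.p = D.p := rfl
@[simp] theorem pth_T : D.pth.T = D.T := rfl
theorem pth_s (i : ℕ) (ω : Ω) : D.pth.s i ω = D.s i ω := rfl

theorem pth_tv (i : ℕ) (ω : Ω) : D.pth.tv i (D.T i ω) = D.s i ω := by
  unfold Pth.tv s rd
  have := D.pth.htm i ω
  rw [pth_T, pth_a, pth_t] at this
  rw [this]
  rfl

theorem F_ga (i : ℕ) (ω : Ω) : (D.pth.F i ω).ga = D.ga' i ω := by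
  show ((hd (D.T i ω)).2.2.2 : ℝ) / 2 ^ D.rk i - D.oG = _
  rw [D.hd_T]; rfl

theorem F_ka (i : ℕ) (ω : Ω) : (D.pth.F i ω).ka = D.ka' i ω := by
  show ((hd (D.T i ω)).2.2.1 : ℝ) / 2 ^ D.rk i - D.oK = _
  rw [D.hd_T]; rfl

theorem F_al (i : ℕ) (ω : Ω) : (D.pth.F i ω).al = D.al' i ω := by
  show 2 ^ D.a i * (((hd (D.T i ω)).2.1 : ℝ) / 2 ^ D.rk i) = _
  rw [D.hd_T]; rfl

theorem F_cN (i : ℕ) (ω : Ω) : (D.pth.F i ω).cN (D.l ω) (D.s i ω) =
    D.ga' i ω - D.ka' i ω * (D.l ω).w - D.al' i ω * (D.l ω).N (D.s i ω) := by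
  unfold Fu.cN
  rw [F_ga, F_ka, F_al]

/-- own slope of the functional of step `i` at the ray -/
theorem F_cV (i : ℕ) (ω : Ω) : (D.pth.F i ω).cV (D.l ω) (D.s i ω) =
    rd (D.rf i) (D.p ω) * (D.pth.F i ω).cN (D.l ω) (D.s i ω) := by
  have h := D.pth_tv i ω
  unfold Fu.cV Fu.cN Pth.F Pth.Fv
  rw [show D.pth.T i ω = D.T i ω from rfl, h]
  simp only [pth_l, pth_rf, pth_p]
  ring

/-! ### the letter is a function of the end label -/

theorem rc_congr {i : ℕ} {ω ω' : Ω} (ht : fl1 (D.a i) (D.t ω) = fl1 (D.a i) (D.t ω'))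
    (hF : D.FW ω = D.FW ω') (hW : D.tW ω = D.tW ω') (hN : D.Nc ω = D.Nc ω') (hg : D.gA i ω = D.gA i ω') :
    D.rc i ω = D.rc i ω' := by
  have hs : D.s i ω = D.s i ω' := by unfold s rd; rw [ht]
  have h1 : D.aN i ω = D.aN i ω' := by unfold aN; rw [hg]
  have h2 : D.kN i ω = D.kN i ω' := by unfold kN kR; rw [hg, hF, hW, hs]
  have h3 : D.gN i ω = D.gN i ω' := by unfold gN gR Nr' de al'; rw [h1, hg, hF, hN]
  unfold rc
  rw [ht, h1, h2, h3]

/-- **the letter is a function of the end label, of its time and of the slopes** -/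
theorem T_congr {i : ℕ} {ω ω' : Ω} (ht : ∀ j ≤ i, fl1 (D.a j) (D.t ω) = fl1 (D.a j) (D.t ω'))
    (hF : D.FW ω = D.FW ω') (hW : D.tW ω = D.tW ω') (hN : D.Nc ω = D.Nc ω')
    (hg : ∀ j ≤ i, D.gA j ω = D.gA j ω') : D.T i ω = D.T i ω' :=
  (D.T_eq_iff i ω ω').2 fun j hj => D.rc_congr (ht j hj) hF hW hN (hg j hj)

/-- the same for a law and a variable `V` (= `W'`) -/
theorem T_fn [Fintype Ω] {S : Type*} (P : Law Ω) (V : Ω → S) (i : ℕ)
    (ht : Fn P (fun ω => fl1 (D.a i) (D.t ω)) V) (hF : Fn P D.FW V) (hW : Fn P D.tW V) (hN : Fn P D.Nc V)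
    (hg : ∀ j ≤ i, Fn P (D.gA j) V) : Fn P (D.T i) V := by
  intro ω ω' h1 h2 h
  refine D.T_congr (fun j hj => ?_) (hF ω ω' h1 h2 h) (hW ω ω' h1 h2 h) (hN ω ω' h1 h2 h)
    fun j hj => hg j hj ω ω' h1 h2 h
  exact Vale.Agent.P127.U.CellD.fl1_fl1 (D.ha hj) (ht ω ω' h1 h2 h)

/-! ### estimates -/

theorem q2_one {n : ℕ} : q2 n ≤ 1 := by
  have := q2_le (Nat.zero_le n)
  unfold q2 at this ⊢
  simpa using this

/-- error of the curvature -/
theorem al_err (i : ℕ) (ω : Ω) : |D.al' i ω - D.gA i ω| * q2 (D.a i) ≤ q2 (D.rk i) := by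
  have h := rd_err (D.rk i) (D.gA i ω * q2 (D.a i))
  have h2 := q2_mul_pow (D.a i)
  have h3 := q2_pos (D.a i)
  have e : D.al' i ω * q2 (D.a i) = rd (D.rk i) (D.gA i ω * q2 (D.a i)) := by
    unfold al' aN rd
    linear_combination ((fl1 (D.rk i) (D.gA i ω * q2 (D.a i)) : ℝ) / 2 ^ D.rk i) * h2
  rw [← e, ← sub_mul, abs_mul, abs_of_pos h3] at h
  exact h

/-- error of a rounding with offset -/
theorem off_err (n : ℕ) (x o : ℝ) : |rd n (x + o) - o - x| ≤ q2 n := by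
  have h := rd_err n (x + o)
  rwa [show rd n (x + o) - (x + o) = rd n (x + o) - o - x by ring] at h

/-- error of kappa -/
theorem ka_err (i : ℕ) (ω : Ω) : |D.ka' i ω - D.kR i ω| ≤ q2 (D.rk i) := off_err _ _ _

/-- error of gamma -/
theorem ga_err (i : ℕ) (ω : Ω) : |D.ga' i ω - D.gR i ω| ≤ q2 (D.rk i) := off_err _ _ _

/-- hypotheses of the letter at a point of the probability space -/
structure Hy (K : ℝ) (h : ℕ) (ω : Ω) : Prop where
  K1 : 1 ≤ K
  v1 : |(D.l ω).v| ≤ 2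
  w1 : |(D.l ω).w| ≤ 2
  p1 : |D.p ω| ≤ q2 (2 * D.μ)
  /-- `FW` is normalised at the ray -/
  n1 : 1 ≤ K * (D.FW ω).cN (D.l ω) (D.tW ω)
  n2 : (D.FW ω).cN (D.l ω) (D.tW ω) ≤ K
  k1 : |(D.FW ω).ka| ≤ K
  lev : ∀ i, D.a i ≤ h
  /-- the time of the label -/
  tm : ∀ i, |D.tW ω - D.s i ω| ≤ K * q2 (D.a i)
  /-- the position of the label -/
  Nc : |(D.l ω).N (D.tW ω) - D.Nc ω| ≤ K * q2 h
  /-- size of the slopes -/
  g1 : ∀ i, |D.gA i ω| * q2 (D.a i) ≤ K
  /-- the slopes of two steps agree -/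
  gg : ∀ i j, i ≤ j → |D.gA j ω - D.gA i ω| * q2 (D.a j) ≤ K * q2 (D.rk i)
  /-- **COMPATIBILITY** : the slopes agree with the curvature of the end label -/
  gW : ∀ i, |D.gA i ω - (D.FW ω).al| * q2 h ≤ K * q2 (D.rk i)
  /-- the start precision -/
  r0 : ∀ i, 18 * K ^ 3 * q2 (D.rk i) ≤ 1

variable {D} {K : ℝ} {h : ℕ} {ω : Ω}

theorem Hy.pos (H : D.Hy K h ω) : 0 < K := by linarith [H.K1]

/-- centred N-coefficient of `G` -/
theorem Hy.G_cN (H : D.Hy K h ω) (i : ℕ) :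
    |(D.G i ω).cN (D.l ω) (D.tW ω) - (D.FW ω).cN (D.l ω) (D.tW ω)| ≤ K ^ 2 * q2 (D.rk i) := by
  have h1 := H.Nc
  have h2 := H.gW i
  have h3 := q2_pos h
  have hK := H.pos
  unfold G
  rw [bend_cN]
  have e : (D.FW ω).cN (D.l ω) (D.tW ω) - D.de i ω * ((D.l ω).N (D.tW ω) - D.Nc ω) -
      (D.FW ω).cN (D.l ω) (D.tW ω) = -(D.de i ω * ((D.l ω).N (D.tW ω) - D.Nc ω)) := by ring
  rw [e, abs_neg, abs_mul]
  have h4 : |D.de i ω| * |(D.l ω).N (D.tW ω) - D.Nc ω| ≤ |D.de i ω| * (K * q2 h) :=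
    mul_le_mul_of_nonneg_left h1 (abs_nonneg _)
  unfold de at *
  nlinarith

theorem Hy.G_cV (H : D.Hy K h ω) (hX : |(D.l ω).X (D.tW ω) - D.Xc ω| ≤ K * q2 h) (i : ℕ) :
    |(D.G i ω).cV (D.l ω) (D.tW ω) - (D.FW ω).cV (D.l ω) (D.tW ω)| ≤ K ^ 2 * q2 (D.rk i) := by
  have h2 := H.gW i
  have h3 := q2_pos h
  have hK := H.pos
  unfold G
  rw [bend_cV]
  have e : (D.FW ω).cV (D.l ω) (D.tW ω) + D.de i ω * ((D.l ω).X (D.tW ω) - D.Xc ω) -
      (D.FW ω).cV (D.l ω) (D.tW ω) = D.de i ω * ((D.l ω).X (D.tW ω) - D.Xc ω) := by ring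
  rw [e, abs_mul]
  have h4 : |D.de i ω| * |(D.l ω).X (D.tW ω) - D.Xc ω| ≤ |D.de i ω| * (K * q2 h) :=
    mul_le_mul_of_nonneg_left hX (abs_nonneg _)
  unfold de at *
  nlinarith

/-- position of the ray at the rounded time against the reference position -/
theorem Hy.Nr (H : D.Hy K h ω) (i : ℕ) :
    |D.Nr' i ω - (D.l ω).N (D.s i ω)| ≤ (1 + 3 * K) * q2 (D.a i) := by
  have h1 : |D.Nr' i ω - D.Nc ω| ≤ q2 (D.a i) := off_err _ _ _
  have h2 := H.Nc
  have h3 := H.tm i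
  have h4 := H.w1
  have h5 := q2_le (H.lev i)
  have hK := H.pos
  have h6 : (D.l ω).N (D.tW ω) - (D.l ω).N (D.s i ω) = (D.tW ω - D.s i ω) * (D.l ω).w := by
    unfold Ray.N; ring
  have h7 : |(D.l ω).N (D.tW ω) - (D.l ω).N (D.s i ω)| ≤ 2 * K * q2 (D.a i) := by
    rw [h6, abs_mul]
    have := mul_le_mul h3 h4 (abs_nonneg _) (mul_nonneg hK.le (q2_pos _).le)
    linarith
  have e : D.Nr' i ω - (D.l ω).N (D.s i ω) = (D.Nr' i ω - D.Nc ω) +
      (-((D.l ω).N (D.tW ω) - D.Nc ω) + ((D.l ω).N (D.tW ω) - (D.l ω).N (D.s i ω))) := by ring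
  rw [e]
  have h8 := abs_add_le (D.Nr' i ω - D.Nc ω)
    (-((D.l ω).N (D.tW ω) - D.Nc ω) + ((D.l ω).N (D.tW ω) - (D.l ω).N (D.s i ω)))
  have h9 := abs_add_le (-((D.l ω).N (D.tW ω) - D.Nc ω)) ((D.l ω).N (D.tW ω) - (D.l ω).N (D.s i ω))
  rw [abs_neg] at h9
  nlinarith

/-- **the N-coefficient of the rounded functional against the one of the label** -/
theorem Hy.cN_near (H : D.Hy K h ω) (i : ℕ) :
    |(D.pth.F i ω).cN (D.l ω) (D.s i ω) - (D.FW ω).cN (D.l ω) (D.tW ω)| ≤ 9 * K ^ 2 * q2 (D.rk i) := by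
  have h1 := H.G_cN i
  have h2 := D.al_err i ω
  have h3 := D.ka_err i ω
  have h4 := D.ga_err i ω
  have h5 := H.Nr i
  have hK := H.K1
  have h6 := H.w1
  have hq := q2_pos (D.rk i)
  have hq' := q2_pos (D.a i)
  -- the functional at the rounded time
  have e1 : (D.G i ω).cN (D.l ω) (D.tW ω) = (D.FW ω).ga + D.de i ω * D.Nc ω - D.kR i ω * (D.l ω).w -
      D.gA i ω * (D.l ω).N (D.s i ω) := by
    unfold G bend Fu.cN kR de Ray.N
    ring
  have e2 : (D.pth.F i ω).cN (D.l ω) (D.s i ω) - (D.G i ω).cN (D.l ω) (D.tW ω) =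
      (D.ga' i ω - D.gR i ω) - (D.ka' i ω - D.kR i ω) * (D.l ω).w +
        (D.al' i ω - D.gA i ω) * (D.Nr' i ω - (D.l ω).N (D.s i ω)) := by
    rw [F_cN, e1]
    unfold gR
    ring
  have h7 : |(D.ka' i ω - D.kR i ω) * (D.l ω).w| ≤ 2 * q2 (D.rk i) := by
    rw [abs_mul]
    have := mul_le_mul h3 h6 (abs_nonneg _) hq.le
    linarith
  have h8 : |(D.al' i ω - D.gA i ω) * (D.Nr' i ω - (D.l ω).N (D.s i ω))| ≤
      (1 + 3 * K) * q2 (D.rk i) := by
    rw [abs_mul]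
    have := mul_le_mul_of_nonneg_left h5 (abs_nonneg (D.al' i ω - D.gA i ω))
    nlinarith
  have h9 : |(D.pth.F i ω).cN (D.l ω) (D.s i ω) - (D.G i ω).cN (D.l ω) (D.tW ω)| ≤
      (4 + 3 * K) * q2 (D.rk i) := by
    rw [e2]
    have t1 := abs_add_le ((D.ga' i ω - D.gR i ω) - (D.ka' i ω - D.kR i ω) * (D.l ω).w)
      ((D.al' i ω - D.gA i ω) * (D.Nr' i ω - (D.l ω).N (D.s i ω)))
    have t2 := abs_sub (D.ga' i ω - D.gR i ω) ((D.ka' i ω - D.kR i ω) * (D.l ω).w)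
    nlinarith
  have e3 : (D.pth.F i ω).cN (D.l ω) (D.s i ω) - (D.FW ω).cN (D.l ω) (D.tW ω) =
      ((D.pth.F i ω).cN (D.l ω) (D.s i ω) - (D.G i ω).cN (D.l ω) (D.tW ω)) +
      ((D.G i ω).cN (D.l ω) (D.tW ω) - (D.FW ω).cN (D.l ω) (D.tW ω)) := by ring
  rw [e3]
  have t3 := abs_add_le ((D.pth.F i ω).cN (D.l ω) (D.s i ω) - (D.G i ω).cN (D.l ω) (D.tW ω))
    ((D.G i ω).cN (D.l ω) (D.tW ω) - (D.FW ω).cN (D.l ω) (D.tW ω))
  have h10 : (4 + 3 * K) * q2 (D.rk i) + K ^ 2 * q2 (D.rk i) ≤ 9 * K ^ 2 * q2 (D.rk i) := by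
    nlinarith [mul_nonneg hq.le (by nlinarith : (0 : ℝ) ≤ 8 * K ^ 2 - 3 * K - 4)]
  linarith

theorem Hy.K12 (H : D.Hy K h ω) : 1 ≤ 18 * K ^ 2 := by nlinarith [H.K1]

/-- **normalisation and compatibility of the path** -/
theorem Hy.ok (H : D.Hy K h ω) : D.pth.Ok (18 * K ^ 2) ω := by
  have hK := H.K1
  have hK0 := H.pos
  have hK2 : K ≤ K ^ 2 := by nlinarith
  refine ⟨H.v1, H.w1, H.p1, fun i => ?_, fun i => ?_, fun i => ?_, fun i => ?_, fun i j hij => ?_⟩
  · -- n1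
    have h1 := H.cN_near i
    have h2 := H.n1
    have h3 := H.r0 i
    have hq := q2_pos (D.rk i)
    show 1 ≤ 18 * K ^ 2 * (D.pth.F i ω).cN (D.l ω) (D.s i ω)
    rw [abs_le] at h1
    have h4 : K * (D.pth.F i ω).cN (D.l ω) (D.s i ω) ≥ K * (D.FW ω).cN (D.l ω) (D.tW ω) -
        K * (9 * K ^ 2 * q2 (D.rk i)) := by
      have := mul_le_mul_of_nonneg_left (show (D.FW ω).cN (D.l ω) (D.tW ω) -
        9 * K ^ 2 * q2 (D.rk i) ≤ (D.pth.F i ω).cN (D.l ω) (D.s i ω) by linarith [h1.1]) hK0.le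
      linarith
    have h5 : K * (9 * K ^ 2 * q2 (D.rk i)) ≤ 1 / 2 := by nlinarith
    have h6 : 1 / 2 ≤ K * (D.pth.F i ω).cN (D.l ω) (D.s i ω) := by linarith
    nlinarith
  · -- n2
    have h1 := H.cN_near i
    have h2 := H.n2
    have h3 := H.r0 i
    have hq := q2_pos (D.rk i)
    show (D.pth.F i ω).cN (D.l ω) (D.s i ω) ≤ 18 * K ^ 2
    rw [abs_le] at h1
    have h5 : 9 * K ^ 2 * q2 (D.rk i) ≤ 1 := by
      have : 18 * K ^ 2 * q2 (D.rk i) ≤ 18 * K ^ 3 * q2 (D.rk i) := by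
        refine mul_le_mul_of_nonneg_right ?_ hq.le
        nlinarith [sq_nonneg K]
      nlinarith
    nlinarith [h1.2]
  · -- k1
    show |(D.pth.F i ω).ka| ≤ 18 * K ^ 2
    rw [F_ka]
    have h1 := D.ka_err i ω
    have h2 := H.k1
    have h3 := H.tm i
    have h4 := H.g1 i
    have h5 : |(D.s i ω - D.tW ω) * D.gA i ω| ≤ K ^ 2 := by
      rw [abs_mul, abs_sub_comm]
      have := mul_le_mul_of_nonneg_right h3 (abs_nonneg (D.gA i ω))
      nlinarith
    have h6 : |D.kR i ω| ≤ K + K ^ 2 := by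
      unfold kR
      exact (abs_sub _ _).trans (by linarith)
    have h7 : |D.ka' i ω| ≤ |D.ka' i ω - D.kR i ω| + |D.kR i ω| := by
      have := abs_add_le (D.ka' i ω - D.kR i ω) (D.kR i ω)
      simpa using this
    have h8 : q2 (D.rk i) ≤ 1 := q2_one
    nlinarith
  · -- a1
    show |(D.pth.F i ω).al| * q2 (D.a i) ≤ 18 * K ^ 2
    rw [F_al]
    have h1 := D.al_err i ω
    have h2 := H.g1 i
    have h7 : |D.al' i ω| ≤ |D.al' i ω - D.gA i ω| + |D.gA i ω| := by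
      have := abs_add_le (D.al' i ω - D.gA i ω) (D.gA i ω)
      simpa using this
    have h8 : q2 (D.rk i) ≤ 1 := q2_one
    have h9 := mul_le_mul_of_nonneg_right h7 (q2_pos (D.a i)).le
    nlinarith
  · -- ag
    have hqi := q2_pos (D.rk i)
    have hqj : q2 (D.rk j) ≤ q2 (D.rk i) := q2_le (D.hk hij)
    have haj : q2 (D.a j) ≤ q2 (D.a i) := q2_le (D.ha hij)
    have haj0 := q2_pos (D.a j)
    refine ⟨?_, ?_, ?_⟩
    · show |(D.pth.F j ω).cN (D.l ω) (D.s j ω) -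
        ((D.pth.F i ω).sh (D.s j ω - D.s i ω)).cN (D.l ω) (D.s j ω)| ≤ 18 * K ^ 2 * q2 (D.rk i)
      have e : ((D.pth.F i ω).sh (D.s j ω - D.s i ω)).cN (D.l ω) (D.s j ω) =
          (D.pth.F i ω).cN (D.l ω) (D.s i ω) := by
        have := Fu.cN_sh (D.pth.F i ω) (D.l ω) (D.s i ω) (D.s j ω - D.s i ω)
        rwa [add_sub_cancel] at this
      rw [e]
      have h1 := H.cN_near i
      have h2 := H.cN_near j
      have e2 : (D.pth.F j ω).cN (D.l ω) (D.s j ω) - (D.pth.F i ω).cN (D.l ω) (D.s i ω) =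
          ((D.pth.F j ω).cN (D.l ω) (D.s j ω) - (D.FW ω).cN (D.l ω) (D.tW ω)) -
          ((D.pth.F i ω).cN (D.l ω) (D.s i ω) - (D.FW ω).cN (D.l ω) (D.tW ω)) := by ring
      rw [e2]
      refine (abs_sub _ _).trans ?_
      have h3 : 9 * K ^ 2 * q2 (D.rk j) ≤ 9 * K ^ 2 * q2 (D.rk i) :=
        mul_le_mul_of_nonneg_left hqj (by positivity)
      linarith
    · show |(D.pth.F j ω).ka - ((D.pth.F i ω).ka - (D.s j ω - D.s i ω) * (D.pth.F i ω).al)| ≤
        18 * K ^ 2 * q2 (D.rk i)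
      rw [F_ka, F_ka, F_al]
      have h1 := D.ka_err i ω
      have h2 := D.ka_err j ω
      have h3 := D.al_err i ω
      have h4 := H.gg i j hij
      have h5 := H.tm i
      have h6 := H.tm j
      have e : D.ka' j ω - (D.ka' i ω - (D.s j ω - D.s i ω) * D.al' i ω) =
          (D.ka' j ω - D.kR j ω) - (D.ka' i ω - D.kR i ω) + ((D.tW ω - D.s j ω) * (D.gA j ω - D.gA i ω) +
          ((D.tW ω - D.s i ω) - (D.tW ω - D.s j ω)) * (D.al' i ω - D.gA i ω)) := by
        unfold kR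
        ring
      rw [e]
      have t1 := abs_add_le ((D.ka' j ω - D.kR j ω) - (D.ka' i ω - D.kR i ω))
        ((D.tW ω - D.s j ω) * (D.gA j ω - D.gA i ω) +
          ((D.tW ω - D.s i ω) - (D.tW ω - D.s j ω)) * (D.al' i ω - D.gA i ω))
      have t2 := abs_sub (D.ka' j ω - D.kR j ω) (D.ka' i ω - D.kR i ω)
      have t3 := abs_add_le ((D.tW ω - D.s j ω) * (D.gA j ω - D.gA i ω))
        (((D.tW ω - D.s i ω) - (D.tW ω - D.s j ω)) * (D.al' i ω - D.gA i ω))
      have t4 : |(D.tW ω - D.s j ω) * (D.gA j ω - D.gA i ω)| ≤ K ^ 2 * q2 (D.rk i) := by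
        rw [abs_mul]
        have := mul_le_mul_of_nonneg_right h6 (abs_nonneg (D.gA j ω - D.gA i ω))
        nlinarith
      have t5 : |((D.tW ω - D.s i ω) - (D.tW ω - D.s j ω)) * (D.al' i ω - D.gA i ω)| ≤
          2 * K * q2 (D.rk i) := by
        rw [abs_mul]
        have t6 : |(D.tW ω - D.s i ω) - (D.tW ω - D.s j ω)| ≤ 2 * K * q2 (D.a i) := by
          refine (abs_sub _ _).trans ?_
          nlinarith
        have := mul_le_mul_of_nonneg_right t6 (abs_nonneg (D.al' i ω - D.gA i ω))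
        nlinarith
      have t7 : (2 + K ^ 2 + 2 * K) * q2 (D.rk i) ≤ 18 * K ^ 2 * q2 (D.rk i) :=
        mul_le_mul_of_nonneg_right (by nlinarith) hqi.le
      linarith
    · show |(D.pth.F j ω).al - (D.pth.F i ω).al| * q2 (D.a j) ≤ 18 * K ^ 2 * q2 (D.rk i)
      rw [F_al, F_al]
      have h1 := D.al_err i ω
      have h2 := D.al_err j ω
      have h3 := H.gg i j hij
      have e : D.al' j ω - D.al' i ω = (D.al' j ω - D.gA j ω) - (D.al' i ω - D.gA i ω) +
          (D.gA j ω - D.gA i ω) := by ring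
      rw [e]
      have t1 := abs_add_le ((D.al' j ω - D.gA j ω) - (D.al' i ω - D.gA i ω)) (D.gA j ω - D.gA i ω)
      have t2 := abs_sub (D.al' j ω - D.gA j ω) (D.al' i ω - D.gA i ω)
      have t3 := mul_le_mul_of_nonneg_right (t1.trans (add_le_add_left t2 _)) haj0.le
      have t4 : |D.al' i ω - D.gA i ω| * q2 (D.a j) ≤ q2 (D.rk i) :=
        (mul_le_mul_of_nonneg_left haj (abs_nonneg _)).trans h1
      have t5 : (2 + K) * q2 (D.rk i) ≤ 18 * K ^ 2 * q2 (D.rk i) :=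
        mul_le_mul_of_nonneg_right (by nlinarith) hqi.le
      linarith

/-- **the functional of step `i` agrees with the functional of the end label on the ball of level `h`** -/
theorem Hy.agW (H : D.Hy K h ω) (i : ℕ) : Pth.Agr (18 * K ^ 2) (D.rk i) h
    ((D.pth.F i ω).sh (D.tW ω - D.s i ω)) (D.FW ω) (D.l ω) (D.tW ω) := by
  have hK := H.K1
  have hqi := q2_pos (D.rk i)
  have hah : q2 h ≤ q2 (D.a i) := q2_le (H.lev i)
  have hh := q2_pos h
  refine ⟨?_, ?_, ?_⟩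
  · have e : ((D.pth.F i ω).sh (D.tW ω - D.s i ω)).cN (D.l ω) (D.tW ω) =
        (D.pth.F i ω).cN (D.l ω) (D.s i ω) := by
      have := Fu.cN_sh (D.pth.F i ω) (D.l ω) (D.s i ω) (D.tW ω - D.s i ω)
      rwa [add_sub_cancel] at this
    rw [e, abs_sub_comm]
    refine (H.cN_near i).trans ?_
    exact mul_le_mul_of_nonneg_right (by nlinarith) hqi.le
  · show |(D.FW ω).ka - ((D.pth.F i ω).ka - (D.tW ω - D.s i ω) * (D.pth.F i ω).al)| ≤
      18 * K ^ 2 * q2 (D.rk i)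
    rw [F_ka, F_al]
    have h1 := D.ka_err i ω
    have h3 := D.al_err i ω
    have h5 := H.tm i
    have e : (D.FW ω).ka - (D.ka' i ω - (D.tW ω - D.s i ω) * D.al' i ω) =
        (D.tW ω - D.s i ω) * (D.al' i ω - D.gA i ω) - (D.ka' i ω - D.kR i ω) := by
      unfold kR
      ring
    rw [e]
    refine (abs_sub _ _).trans ?_
    have t5 : |(D.tW ω - D.s i ω) * (D.al' i ω - D.gA i ω)| ≤ K * q2 (D.rk i) := by
      rw [abs_mul]
      have := mul_le_mul_of_nonneg_right h5 (abs_nonneg (D.al' i ω - D.gA i ω))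
      have hK0 := H.pos
      nlinarith
    have t7 : (K + 1) * q2 (D.rk i) ≤ 18 * K ^ 2 * q2 (D.rk i) :=
      mul_le_mul_of_nonneg_right (by nlinarith) hqi.le
    linarith
  · show |(D.FW ω).al - (D.pth.F i ω).al| * q2 h ≤ 18 * K ^ 2 * q2 (D.rk i)
    rw [F_al]
    have h1 := D.al_err i ω
    have h3 := H.gW i
    have e : (D.FW ω).al - D.al' i ω = -(D.gA i ω - (D.FW ω).al) - (D.al' i ω - D.gA i ω) := by ring
    rw [e]
    have t2 := abs_sub (-(D.gA i ω - (D.FW ω).al)) (D.al' i ω - D.gA i ω)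
    rw [abs_neg] at t2
    have t3 := mul_le_mul_of_nonneg_right t2 hh.le
    have t4 : |D.al' i ω - D.gA i ω| * q2 h ≤ q2 (D.rk i) :=
      (mul_le_mul_of_nonneg_left hah (abs_nonneg _)).trans h1
    have t5 : (K + 1) * q2 (D.rk i) ≤ 18 * K ^ 2 * q2 (D.rk i) :=
      mul_le_mul_of_nonneg_right (by nlinarith) hqi.le
    linarith

/-! ### the three numbers against data of the ray -/

/-- the curvature numerator against a number `A` (slope of the line of the ray) -/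
theorem al_near (D : Inp Ω) (i : ℕ) (ω : Ω) {A M : ℝ} (h : |D.gA i ω - A| * q2 (D.a i) ≤ M * q2 (D.rk i)) :
    |D.gA i ω * q2 (D.a i) - A * q2 (D.a i)| ≤ M * q2 (D.rk i) := by
  rw [← sub_mul, abs_mul, abs_of_pos (q2_pos _)]
  exact h

/-- kappa at the rounded time against the line `k + (tW - s) A` of the ray -/
theorem ka_near (D : Inp Ω) (i : ℕ) (ω : Ω) {A k M M' c : ℝ} (hc : 0 ≤ c)
    (h : |D.gA i ω - A| * q2 (D.a i) ≤ M * q2 (D.rk i)) (hk : |(D.FW ω).ka - k| ≤ M' * q2 (D.rk i))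
    (ht : |D.tW ω - D.s i ω| ≤ c * q2 (D.a i)) :
    |D.kR i ω - (k - (D.s i ω - D.tW ω) * A)| ≤ (M' + c * M) * q2 (D.rk i) := by
  have e : D.kR i ω - (k - (D.s i ω - D.tW ω) * A) =
      ((D.FW ω).ka - k) + (D.tW ω - D.s i ω) * (D.gA i ω - A) := by
    unfold kR; ring
  rw [e]
  refine (abs_add_le _ _).trans ?_
  have : |(D.tW ω - D.s i ω) * (D.gA i ω - A)| ≤ c * M * q2 (D.rk i) := by
    rw [abs_mul]
    have := mul_le_mul_of_nonneg_right ht (abs_nonneg (D.gA i ω - A))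
    nlinarith
  linarith

/-- gamma against the N-coefficient of the ray -/
theorem Hy.ga_near (H : D.Hy K h ω) (i : ℕ) :
    |D.gR i ω - ((D.FW ω).cN (D.l ω) (D.tW ω) + D.ka' i ω * (D.l ω).w +
      D.al' i ω * (D.l ω).N (D.s i ω))| ≤ 10 * K ^ 2 * q2 (D.rk i) := by
  have h1 := H.cN_near i
  have h2 := D.ga_err i ω
  have hq := q2_pos (D.rk i)
  have hK := H.K1
  rw [F_cN] at h1
  have e : D.gR i ω - ((D.FW ω).cN (D.l ω) (D.tW ω) + D.ka' i ω * (D.l ω).w +
      D.al' i ω * (D.l ω).N (D.s i ω)) = (D.ga' i ω - D.ka' i ω * (D.l ω).w -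
      D.al' i ω * (D.l ω).N (D.s i ω) - (D.FW ω).cN (D.l ω) (D.tW ω)) - (D.ga' i ω - D.gR i ω) := by ring
  rw [e]
  refine (abs_sub _ _).trans ?_
  have : 1 * q2 (D.rk i) ≤ K ^ 2 * q2 (D.rk i) := mul_le_mul_of_nonneg_right (by nlinarith) hq.le
  linarith

end Inp

end Vale.Agent.P106.U.S3.PthW
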