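import Vale.Agent.P106.U.Cell
import Vale.Agent.P106.U.H61.Mac
import Vale.Agent.P106.U.H786.Adp
import Vale.Agent.P127.U.Mic.Colp
import Vale.Agent.P127.U.H404.Event

/-!
# P106 / U / S3 : the output of the path (S3), used by MIC and by the composition (helper404)

Texts: S3 v2 = 18745 (661) + addenda 18866, 19896 (one cap = base), S5 v2 = 18787 (336), Lean of the two words: `H449/{Expl,Wrd1}`, `H824/{StripL,Gh}`,
`H785/Word2`, selection `H565/SelJ`, cells `U/Cell`, price `H712/Side`.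

* `Run` : the data.  Steps `i` of ONE block of `m` digits each (time, own slope `φ`, or line), levels `C.a`, `C.rf`, `C.rk` of
  101's path; `C.T i` = the letter of the cell, a function of `W'` = closure of `(W, t_h)` and the direction to `m b1` digits
  (465: atoms); `C.rk i = R'`.
* `U i` : letter of the ray side (state of word 1 at the END of the time level `C.a i`; contains the time to `C.a i` digits, the
  own slope to `≥ C.rf i` digits); `rI i` = digits of the line known given `Z i = (l, U i)`; `al i` = slope in time of this line.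
* `n` = stop; the data are valid up to `n + J`.
* `Run.Ok` : geometry, letters, path, knowledge given `W'` / given `(l, U i)`, prices.
* `Run.Light` : the time block, the block of the own slope, the block of the line do not collide given `(l, U i)`, nor given
  more, at the price of the information.
* `Run.Good b i` : the a-step `i` is good at the cap `b` (336's l-good level); `Run.bad`.
* `Run.Cap` : the cap `b1` (blocks) is the base.
-/

set_option autoImplicit false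

namespace Vale.Agent.P106.U.S3

open Finset Vale.Agent.P127 Vale.Agent.P127.Stk Vale.Agent.P127.U Vale.Agent.P106.W
open Vale.Agent.P106.K (Ry RyOk bl Bin)
open Vale.Agent.P127.U.Mic (colp)
open Vale.Agent.P127.U.CellD (q2 rd)
open Vale.Agent.P106.U.Cell (Pth Ray)

/-- no line: whatever line is chosen from `Z`, the point `(t, κ)` is within `w` of it with probability `≤ ε` only -/
def NoStrip {Ω : Type} [Fintype Ω] {T : Type} (Q : Law Ω) (t κ : Ω → ℝ) (Z : Ω → T) (w ε : ℝ) : Prop :=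
  ∀ x : T → ℝ × ℝ, prE Q (fun ω => |κ ω - ((x (Z ω)).1 + (x (Z ω)).2 * t ω)| ≤ w) ≤ ε

/-- **data of a run** -/
structure Run (Ω : Type) [Fintype Ω] (τ υ : Type) where
  /-- digits of a block -/
  m : ℕ
  /-- precision of the system, level and thickness of `W`, thickness of the start slab -/
  L : ℕ
  h : ℕ
  q : ℕ
  r0 : ℕ
  /-- the law before / after the words, weight of the words -/
  P : Law Ω
  Q : Law Ω
  pw : ℝ
  /-- ray, time, label -/
  ry : Ω → Ry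
  t : Ω → ℝ
  W : Ω → Cbx
  /-- rotation of the coordinates -/
  θ : ℝ
  /-- functional of `W`, normalised, written at the time `qa h t` -/
  FW : Ω → Cell.Fu
  /-- path and cells -/
  C : Pth Ω τ
  /-- the ray side: letter, digits of the line, slope in time of the line, true cell of the point `(t, κ)` -/
  U : ℕ → Ω → υ
  rI : ℕ → ℕ
  al : ℕ → Ω → ℝ
  V : ℕ → Ω → ℤ × ℤ
  /-- stop -/
  n : ℕ
  /-- the cap = the base, in blocks -/
  b1 : ℕ
  /-- the letter of the base: atoms of the closure of `F b1` -/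
  W' : Ω → Set Ω

namespace Run

variable {Ω : Type} [Fintype Ω] {τ υ : Type} (R : Run Ω τ υ)

/-- past of the block `b` of the direction: `W`, the time to `h` digits, the direction `v` to `m b` digits; literally 565's
`pst R.m v (fun ω => (W ω, fl1 h (t ω))) b` -/
noncomputable def F (b : ℕ) (ω : Ω) : (Cbx × ℤ) × ℤ := ((R.W ω, fl1 R.h (R.t ω)), fl1 (R.m * b) (R.C.l ω).v)

/-- block `b` of the direction; literally 565's `yb R.m v b` -/
noncomputable def Y (b : ℕ) (ω : Ω) : ℤ := fl1 (R.m * (b + 1)) (R.C.l ω).v - 2 ^ R.m * fl1 (R.m * b) (R.C.l ω).v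

/-- the time at which `FW` is written -/
noncomputable def tW (ω : Ω) : ℝ := rd R.h (R.t ω)

/-- `κ` of `W` (written at the time `tW`) -/
def κ (ω : Ω) : ℝ := (R.FW ω).ka

/-- what is known on the ray side -/
def Z (i : ℕ) (ω : Ω) : Ry × υ := (R.ry ω, R.U i ω)

/-- a time step -/
def IsA (i : ℕ) : Prop := R.C.a (i + 1) = R.C.a i + R.m

/-- time block of the step -/
noncomputable def tb (i : ℕ) (ω : Ω) : ℤ := fl1 (R.C.a i + R.m) (R.t ω)

/-- block of the own slope of the step -/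
noncomputable def fb (i : ℕ) (ω : Ω) : ℤ := fl1 (R.C.rf i + R.m) (R.C.p ω)

/-- numbers of the rule and of the stop, in digits: `φ` is allowed while `rf < QF`, `rf < rI + B₁`; a line step while `rI < rf`;
stop at `a = A` or `rk = QK`; `J` steps of lookahead; margin `s` (blocks) of the second word; `A' ≥ A` = level at which the slopes
of the lines agree with the slope of `W` (COMPAT) -/
structure Num where
  A : ℕ
  A' : ℕ
  QF : ℕ
  QK : ℕ
  B₁ : ℕ
  J : ℕ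
  s : ℕ

/-- **combinatorics of the path** -/
structure Path (p : Num) : Prop where
  m1 : 1 ≤ R.m
  J1 : 1 ≤ p.J
  a0 : R.C.a 0 = 0
  f0 : R.C.rf 0 = R.r0
  k0 : R.C.rk 0 = R.r0
  /-- one block per step -/
  stp : ∀ i < R.n + p.J,
    (R.C.a (i + 1) = R.C.a i + R.m ∧ R.C.rf (i + 1) = R.C.rf i ∧ R.C.rk (i + 1) = R.C.rk i) ∨
    (R.C.a (i + 1) = R.C.a i ∧ R.C.rf (i + 1) = R.C.rf i + R.m ∧ R.C.rk (i + 1) = R.C.rk i) ∨
    (R.C.a (i + 1) = R.C.a i ∧ R.C.rf (i + 1) = R.C.rf i ∧ R.C.rk (i + 1) = R.C.rk i + R.m)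
  mI : Monotone R.rI
  /-- at the time steps -/
  leI : ∀ i < R.n + p.J, R.IsA i → R.C.rk i ≤ R.rI i ∧ R.rI i ≤ R.C.rf i ∧ R.C.rf i ≤ R.rI i + p.B₁
  /-- stop -/
  stop : ∀ i < R.n, R.C.a i < p.A ∧ R.C.rk i < p.QK
  fin : p.A ≤ R.C.a R.n ∨ p.QK ≤ R.C.rk R.n
  leF : ∀ i ≤ R.n + p.J, R.C.rf i ≤ p.QF
  rA : R.C.a (R.n + p.J) ≤ R.h
  rA' : p.A ≤ p.A' ∧ p.A' ≤ R.h
  rF : p.QF ≤ R.q
  rK : R.r0 ≤ p.QK ∧ p.QK + p.B₁ ≤ p.QF
  /-- the two precisions advance when the time advances by `J` blocks -/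
  advF : ∀ i j, i ≤ j → j ≤ R.n → R.C.a i + p.J * R.m ≤ R.C.a j → R.C.rf i < R.C.rf j ∨ p.QF ≤ R.C.rf i
  advK : ∀ i j, i ≤ j → j ≤ R.n → R.C.a i + p.J * R.m ≤ R.C.a j → R.C.rk i < R.C.rk j
  /-- `R'` rises diagonally below `RI` (785 `RW_diag`) -/
  diag : ∀ i j, i ≤ j → j < R.n → R.IsA i → R.IsA j → R.C.rk i + (R.C.a j - R.C.a i) + p.s * R.m ≤ R.rI i →
    R.C.rk i + (R.C.a j - R.C.a i) ≤ R.C.rk j + R.m
  /-- a jump of `R'` starts near `RI` (785 `RW_jump`) -/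
  jump : ∀ i j, i < j → j ≤ R.n → R.IsA i → R.C.a j = R.C.a i + R.m → R.C.rk i + 3 * R.m ≤ R.C.rk j →
    R.rI i ≤ R.C.rk i + (p.s + 1) * R.m

/-- **geometry, letters, knowledge, prices** : class `K`, threshold `c'` of the second word, price `g'` of the letters of the
cells given the ray side, price `gU` of the letters of the ray side given the ray and the time, and of `W'` -/
structure Ok (p : Num) (K c' g' gU : ℝ) : Prop where
  pth : R.Path p
  /-- the system -/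
  sys : ∀ ω, 0 < R.Q.w ω → RyOk (R.ry ω) ∧ 0 ≤ R.t ω ∧ R.t ω ≤ 1
  pos : 0 < R.pw
  dom : ∀ ω, R.pw * R.Q.w ω ≤ R.P.w ω
  /-- coordinates of the cells -/
  Cl : ∀ ω, R.C.l ω = H786.Adp.toR R.θ (R.ry ω)
  Ct : ∀ ω, R.C.t ω = R.t ω
  /-- functional of `W` : a function of `(W, t_h)`, the functional of the box up to a factor, unit at the ray; own slope -/
  FWf : Fn R.Q R.FW (R.F 0)
  FWW : ∀ ω, 0 < R.Q.w ω → ∃ ρ : ℝ, 1 ≤ K * |ρ| ∧ |ρ| ≤ K ∧
    R.FW ω = ⟨ρ * (H786.Adp.toF R.θ (R.tW ω) (H786.Adp.fuW R.h (R.W ω) (R.t ω))).ga,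
      ρ * (H786.Adp.toF R.θ (R.tW ω) (H786.Adp.fuW R.h (R.W ω) (R.t ω))).ph,
      ρ * (H786.Adp.toF R.θ (R.tW ω) (H786.Adp.fuW R.h (R.W ω) (R.t ω))).ka,
      ρ * (H786.Adp.toF R.θ (R.tW ω) (H786.Adp.fuW R.h (R.W ω) (R.t ω))).al⟩
  FWn : ∀ ω, 0 < R.Q.w ω → |(R.FW ω).cN (R.C.l ω) (R.tW ω) ^ 2 + (R.FW ω).cV (R.C.l ω) (R.tW ω) ^ 2 - 1| ≤ K * q2 R.q
  Cp : ∀ ω, 0 < R.Q.w ω → R.C.p ω * (R.FW ω).cN (R.C.l ω) (R.tW ω) = (R.FW ω).cV (R.C.l ω) (R.tW ω)
  /-- the cells -/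
  ok : ∀ ω, 0 < R.Q.w ω → R.C.Ok K ω
  /-- **COMPAT** (strong form: at the level `A' < h`) : the functionals of the path and the functional of `W` -/
  agW : ∀ ω, 0 < R.Q.w ω → ∀ i ≤ R.n, Pth.Agr K (R.C.rk i) p.A' ((R.C.F i ω).sh (R.tW ω - R.C.s i ω)) (R.FW ω)
    (R.C.l ω) (R.tW ω)
  alW : ∀ ω, 0 < R.Q.w ω → |(R.FW ω).al| * q2 p.A' ≤ K
  /-- the letter `W'` refines `(W, t_h, y_b1)`; its price -/
  W0 : Fn R.Q (R.F R.b1) R.W'
  prW : Stk.hc R.Q R.W' (R.F R.b1) ≤ gU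
  /-- **the letter of the cell is a function of `W'`** -/
  fnT : ∀ i ≤ R.n + p.J, Fn R.Q (R.C.T i) R.W'
  /-- the ray side -/
  Um : ∀ i j, i ≤ j → Fn R.Q (R.Z i) (R.Z j)
  Ut : ∀ i ≤ R.n + p.J, Fn R.Q (fun ω => fl1 (R.C.a i) (R.t ω)) (R.Z i)
  Uf : ∀ i ≤ R.n + p.J, Fn R.Q (fun ω => fl1 (R.C.rf i) (R.C.p ω)) (R.Z i)
  Ua : ∀ i ≤ R.n + p.J, Fn R.Q (R.al i) (R.Z i)
  /-- the next blocks (of an allowed kind) are in the letter of the ray side `J` steps later -/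
  Jf : ∀ i < R.n, R.IsA i → R.C.rf i < p.QF → R.C.rf i < R.rI i + p.B₁ → Fn R.Q (R.fb i) (R.Z (i + p.J))
  JV : ∀ i < R.n, R.IsA i → R.rI i < R.C.rf i → Fn R.Q (R.V i) (R.Z (i + p.J))
  /-- the line of the ray side: `κ` of `W` is a function of the time to `rI` digits -/
  alB : ∀ i ≤ R.n + p.J, ∀ ω, 0 < R.Q.w ω → |R.al i ω| * q2 (R.C.a i) ≤ K
  /-- the slopes of the lines agree (a line may be steep: loss of one block) -/
  alD : ∀ i j, i ≤ j → j ≤ R.n + p.J → ∀ ω, 0 < R.Q.w ω → |R.al j ω - R.al i ω| * q2 (R.C.a j + R.m) ≤ K * q2 (R.rI i)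
  lin : ∀ i ≤ R.n + p.J, ∀ ω ω', 0 < R.Q.w ω → 0 < R.Q.w ω' → R.Z i ω = R.Z i ω' →
    |R.κ ω' - R.κ ω + R.al i ω * (R.tW ω' - R.tW ω)| ≤ K * q2 (R.rI i)
  /-- the slope is known given `W'` to `rk` digits .. -/
  kno : ∀ i ≤ R.n + p.J,
    prE R.Q (fun ω => K * q2 (R.C.rk i) < |(R.C.F i ω).al - R.al i ω| * q2 (R.C.a i)) ≤ c'
  /-- .. and not one block more, for EVERY value of `W'`, if it is known given the ray -/
  unk : ∀ i < R.n, R.IsA i → R.C.rk i + p.s * R.m < R.rI i → ∀ ω, 0 < R.Q.w ω → ∀ x : ℝ,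
    prE R.Q (fun ω' => R.W' ω' = R.W' ω ∧ |R.al i ω' - x| * q2 (R.C.a i) ≤ q2 (R.C.rk i + R.m)) <
      (1 - c') * R.Q.pr R.W' (R.W' ω)
  /-- prices -/
  prT : Stk.hc R.Q (R.C.T 0) (R.Z 0) +
    ∑ i ∈ range (R.n + p.J), Stk.hc R.Q (R.C.T (i + 1)) (fun ω => (R.C.T i ω, R.Z (i + 1) ω)) ≤ g'
  prU : Stk.hc R.Q (R.U 0) R.ry +
    ∑ i ∈ range (R.n + p.J), Stk.hc R.Q (R.U (i + 1)) (fun ω => (R.Z i ω, fl1 (R.C.a (i + 1)) (R.t ω))) ≤ gU

open Classical in
/-- the time steps before the stop -/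
noncomputable def aS : Finset ℕ := (range R.n).filter R.IsA

open Classical in
/-- the time steps at which a `φ`-step was allowed -/
noncomputable def aF (p : Num) : Finset ℕ := R.aS.filter fun i => R.C.rf i < p.QF ∧ R.C.rf i < R.rI i + p.B₁

open Classical in
/-- the time steps at which a line step was allowed -/
noncomputable def aK : Finset ℕ := R.aS.filter fun i => R.rI i < R.C.rf i

/-- **light blocks** given the ray side, and given more, at the price of the information -/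
structure Light (p : Num) (e κ₀ : ℝ) : Prop where
  time : ∀ (δ : Type) (X : ℕ → Ω → δ), ∑ i ∈ R.aS, colp R.Q (R.tb i) (fun ω => (R.Z i ω, X i ω)) ≤
    e + κ₀ * ∑ i ∈ R.aS, mi R.Q (R.tb i) (X i) (R.Z i)
  phi : ∀ (δ : Type) (X : ℕ → Ω → δ), ∑ i ∈ R.aF p, colp R.Q (R.fb i) (fun ω => (R.Z i ω, X i ω)) ≤
    e + κ₀ * ∑ i ∈ R.aF p, mi R.Q (R.fb i) (X i) (R.Z i)
  line : ∀ (δ : Type) (X : ℕ → Ω → δ) (x : ℕ → (Ry × υ) × δ → ℝ × ℝ),
    ∑ i ∈ R.aK, prE R.Q (fun ω => |R.κ ω - ((x i (R.Z i ω, X i ω)).1 + (x i (R.Z i ω, X i ω)).2 * R.tW ω)| ≤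
      q2 (R.rI i + R.m)) ≤ e + κ₀ * ∑ i ∈ R.aK, mi R.Q (R.V i) (X i) (R.Z i)

/-- **the time step `i` is good at the cap `b`** (digits), accuracy `ε` -/
structure Good (p : Num) (ε : ℝ) (b i : ℕ) : Prop where
  isA : R.IsA i
  time : colp R.Q (R.tb i) (fun ω => (R.Z i ω, R.C.cell i b ω)) ≤ ε
  phi : R.C.rf i < p.QF → R.C.rf i < R.rI i + p.B₁ →
    colp R.Q (R.fb i) (fun ω => (R.Z i ω, R.C.cell i b ω)) ≤ ε
  line : R.rI i < R.C.rf i → NoStrip R.Q R.tW R.κ (fun ω => (R.Z i ω, R.C.cell i b ω)) (q2 (R.rI i + R.m)) ε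

open Classical in
/-- the exceptional time steps -/
noncomputable def bad (p : Num) (ε : ℝ) (b : ℕ) : Finset ℕ := R.aS.filter fun i => ¬ R.Good p ε b i

/-- **the cap** `b1` (in blocks), which is also the base; `B` = number of scales (`μ ≤ m B`) -/
structure Cap (p : Num) (B : ℕ) (ε : ℝ) : Prop where
  low : 8 * B < R.b1
  top : R.m * (R.b1 + B) ≤ p.B₁
  room : p.A' + 2 * (R.m * (R.b1 + B)) + 8 * R.C.μ ≤ R.h
  act : colp R.Q (R.Y R.b1) R.W' ≤ ε

/-- 425's field: two labels of one ray and one block of the level `a1` have the same functional on this block, to `r1` digits -/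
structure SwF (a1 r1 : ℕ) (K : ℝ) : Prop where
  p : ∀ ω ω', 0 < R.Q.w ω → 0 < R.Q.w ω' → R.ry ω = R.ry ω' → fl1 a1 (R.t ω) = fl1 a1 (R.t ω') →
    |R.C.p ω' - R.C.p ω| ≤ K * q2 r1
  κ : ∀ ω ω', 0 < R.Q.w ω → 0 < R.Q.w ω' → R.ry ω = R.ry ω' → fl1 a1 (R.t ω) = fl1 a1 (R.t ω') →
    |R.κ ω' - R.κ ω + (R.FW ω).al * (R.tW ω' - R.tW ω)| ≤ K * q2 r1

end Run

/-! ### the blocks -/

/-- **PGood** : few exceptional time steps, at every cap -/
def PGood : Prop :=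
  ∀ {Ω : Type} [Fintype Ω] {τ υ : Type} (R : Run Ω τ υ) (p : Run.Num) (K c' g' gU e κ₀ ε : ℝ), R.Ok p K c' g' gU →
    R.Light p e κ₀ → 0 < ε → 0 ≤ κ₀ → ∀ b : ℕ,
    ((R.bad p ε b).card : ℝ) * ε ≤ 3 * e + κ₀ * ((4 * p.J + 1) * g')

end Vale.Agent.P106.U.S3
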