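import Vale.Agent.P106.U.S3.Props
import Vale.Agent.P106.U.H377.FrmC

/-!
# P106 / U / S3 : lines are light, from the cells and from the time (helper404)

* `line_X` : no thick line chosen from `(Y i, X i)` has mass, if no net line and no block of the time has.
* `Run.line_of` : field `line` of `Run.Light` from the field `time` and 449's `lcell`; the price of the information is
  `5 κ₁ + 5 κ₂ / δ₀` with `κ₁`, `κ₂` the prices for the cells and for the time.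
-/

set_option autoImplicit false

namespace Vale.Agent.P106.U.S3

open Finset Vale.Agent.P127 Vale.Agent.P127.Stk Vale.Agent.P127.U.Mic
open Vale.Agent.P106.U.Frm Vale.Agent.P106.U.StripL
open Vale.Agent.P127.U.CellD (q2 rd)
open Vale.Agent.P106.K (Ry)

/-- `√x ≤ (δ + x / δ) / 2` -/
theorem sqrt_amgm {x δ : ℝ} (hx : 0 ≤ x) (hδ : 0 < δ) : Real.sqrt x ≤ (δ + x / δ) / 2 := by
  have h1 := Real.sq_sqrt hx
  have h2 : (δ + x / δ) / 2 - Real.sqrt x = (δ - Real.sqrt x) ^ 2 / (2 * δ) := by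
    field_simp
    nlinarith
  have h3 : 0 ≤ (δ - Real.sqrt x) ^ 2 / (2 * δ) := by positivity
  linarith

section

variable {Ω : Type} [Fintype Ω] {T U : Type*} (P : Law Ω)

/-- **no thick line has mass**, from the cells and from the time -/
theorem line_X (A : Finset ℕ) (m : ℕ) (a r : ℕ → ℕ) (dd : ℕ → T → Ld) (Y : ℕ → Ω → T) (X : ℕ → Ω → U) (t κ : Ω → ℝ)
    (hk : ∀ i ∈ A, ∀ ω, 0 < P.w ω → (dd i (Y i ω)).k = r i)
    (ha : ∀ i ∈ A, ∀ ω, 0 < P.w ω → (dd i (Y i ω)).a = a i)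
    (hin : ∀ i ∈ A, ∀ ω, 0 < P.w ω → (dd i (Y i ω)).In (t ω) (κ ω)) {e₁ e₂ δ₀ : ℝ} (hδ : 0 < δ₀)
    (h1 : ∀ s : ℕ → T × U → ℤ × ℤ, ∑ i ∈ A, prE P (fun ω => inc m (s i (Y i ω, X i ω))
      ((dd i (Y i ω)).cl m (t ω) (κ ω))) ≤ e₁)
    (h2 : ∑ i ∈ A, colp P (fun ω => fl1 (a i + m) (t ω)) (fun ω => (Y i ω, X i ω)) ≤ e₂)
    (x : ℕ → T × U → ℝ × ℝ) :
    ∑ i ∈ A, prE P (fun ω => |κ ω - ((x i (Y i ω, X i ω)).1 + (x i (Y i ω, X i ω)).2 * t ω)| ≤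
      q2 (r i + m)) ≤ 5 * e₁ + 5 * (δ₀ * A.card + e₂ / δ₀) := by
  have he₁ : 0 ≤ e₁ := (Finset.sum_nonneg fun i _ => prE_nonneg P _).trans (h1 fun _ _ => (0, 0))
  have key : ∀ i ∈ A, prE P (fun ω => |κ ω - ((x i (Y i ω, X i ω)).1 + (x i (Y i ω, X i ω)).2 * t ω)| ≤
      q2 (r i + m)) ≤
      5 * nl P (fun b ω => inc m b ((dd i (Y i ω)).cl m (t ω) (κ ω))) (fun ω => (Y i ω, X i ω)) +
      5 * (δ₀ + colp P (fun ω => fl1 (a i + m) (t ω)) (fun ω => (Y i ω, X i ω)) / δ₀) := by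
    intro i hi
    have g1 := le_nl P (fun (L : ℝ × ℝ) ω => |κ ω - (L.1 + L.2 * t ω)| ≤ q2 (r i + m))
      (fun ω => (Y i ω, X i ω)) (x i)
    have g2 := thk_le P m (a i) (r i) (fun y : T × U => dd i y.1) (fun ω => (Y i ω, X i ω)) t κ
      (hk i hi) (hin i hi)
    have g5 := tb_le P m (a i) (fun y : T × U => dd i y.1) (fun ω => (Y i ω, X i ω)) t κ (ha i hi)
    have g6 := nl_le_colp P (fun ω => fl1 (a i + m) (t ω)) (fun ω => (Y i ω, X i ω))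
    have g7 := sqrt_amgm (colp_nonneg P (fun ω => fl1 (a i + m) (t ω)) (fun ω => (Y i ω, X i ω))) hδ
    rw [prE_ex]
    simp only at g1 g2 g5
    linarith
  refine (Finset.sum_le_sum key).trans ?_
  rw [Finset.sum_add_distrib, ← Finset.mul_sum, ← Finset.mul_sum, Finset.sum_add_distrib, Finset.sum_const,
    nsmul_eq_mul, ← Finset.sum_div]
  have k1 := sum_nl_le P A (fun i b ω => inc m b ((dd i (Y i ω)).cl m (t ω) (κ ω)))
    (fun i ω => (Y i ω, X i ω)) he₁ (fun s => by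
      have := h1 s
      simpa only [prE_ex] using this)
  have k2 : (∑ i ∈ A, colp P (fun ω => fl1 (a i + m) (t ω)) (fun ω => (Y i ω, X i ω))) / δ₀ ≤ e₂ / δ₀ :=
    div_le_div_of_nonneg_right h2 hδ.le
  have k3 : (A.card : ℝ) * δ₀ = δ₀ * A.card := mul_comm _ _
  linarith

/-- information about a constant -/
theorem mi_const {S : Type*} (X : Ω → S) (Y : Ω → T) (c : U) : mi P X (fun _ => c) Y = 0 := by
  unfold mi
  rw [hc_congr P (X := X) (X' := X) (Y := fun ω => (c, Y ω)) (Y' := Y) (fun _ _ _ _ e => congrArg Prod.fst e)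
    (fun _ _ _ _ e => congrArg Prod.fst e) (fun _ _ _ _ e => Prod.ext rfl e) (fun _ _ _ _ e => congrArg Prod.snd e)]
  ring

/-- the digits of the rounded time -/
theorem fl1_rd' {s j : ℕ} (h : j ≤ s) (u : ℝ) : fl1 j (rd s u) = fl1 j u := by
  have key : ∀ x : ℝ, fl1 j x = fl1 s x / ((2 ^ (s - j) : ℕ) : ℤ) := by
    intro x
    unfold fl1
    rw [← Int.floor_div_natCast]
    congr 1
    have e1 : (2 : ℝ) ^ s = 2 ^ j * 2 ^ (s - j) := by rw [← pow_add, Nat.add_sub_cancel' h]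
    push_cast
    rw [e1]
    field_simp
  rw [key, key u]
  congr 1
  unfold rd fl1
  rw [mul_div_cancel₀ _ (by positivity : (2 : ℝ) ^ s ≠ 0), Int.floor_intCast]

end

namespace Run

variable {Ω : Type} [Fintype Ω] {τ υ : Type} (R : Run Ω τ υ)

/-- the block of the time is a function of the cell and of the strip -/
theorem tb_fn {d : Ld} {m : ℕ} {t t' κ κ' : ℝ} {z : ℤ} (hz : d.s0 = z / 2 ^ d.a)
    (e : d.cl m t κ = d.cl m t' κ') : fl1 (d.a + m) t = fl1 (d.a + m) t' := by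
  have key : ∀ t κ : ℝ, fl1 (d.a + m) t = (d.cl m t κ).1 / 2 ^ (m + 6) + 2 ^ m * z := by
    intro t κ
    rw [Ld.cl_eq, tb_cell]
    unfold fl1 Ld.sN
    have e1 : (2 : ℝ) ^ (d.a + m) * t = 2 ^ m * (2 ^ d.a * (t - d.s0)) + ((2 ^ m * z : ℤ) : ℝ) := by
      rw [hz]
      push_cast
      rw [pow_add]
      field_simp
      ring
    rw [e1, Int.floor_add_intCast]
  rw [key t κ, key t' κ', e]

/-- **no thick line has mass** : field `line` of `Run.Light` from the cells and from the time -/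
theorem line_of {p : Num} (hP : R.Path p) (dd : ℕ → Ry × υ → Ld)
    (hk : ∀ i ∈ R.aK, ∀ ω, 0 < R.Q.w ω → (dd i (R.Z i ω)).k = R.rI i)
    (ha : ∀ i ∈ R.aK, ∀ ω, 0 < R.Q.w ω → (dd i (R.Z i ω)).a = R.C.a i)
    (hs : ∀ i ∈ R.aK, ∀ ω, 0 < R.Q.w ω → ∃ z : ℤ, (dd i (R.Z i ω)).s0 = z / 2 ^ R.C.a i)
    (hin : ∀ i ∈ R.aK, ∀ ω, 0 < R.Q.w ω → (dd i (R.Z i ω)).In (R.tW ω) (R.κ ω))
    (hV : ∀ i ∈ R.aK, ∀ ω, 0 < R.Q.w ω → R.V i ω = (dd i (R.Z i ω)).cl R.m (R.tW ω) (R.κ ω))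
    {e₁ κ₁ e₂ κ₂ δ₀ : ℝ} (hδ : 0 < δ₀) (hκ₂ : 0 ≤ κ₂)
    (hcell : ∀ (δ : Type) (X : ℕ → Ω → δ) (s : ℕ → (Ry × υ) × δ → ℤ × ℤ),
      ∑ i ∈ R.aK, prE R.Q (fun ω => inc R.m (s i (R.Z i ω, X i ω)) (R.V i ω)) ≤
        e₁ + κ₁ * ∑ i ∈ R.aK, mi R.Q (R.V i) (X i) (R.Z i))
    (htime : ∀ (δ : Type) (X : ℕ → Ω → δ), ∑ i ∈ R.aS, colp R.Q (R.tb i) (fun ω => (R.Z i ω, X i ω)) ≤
      e₂ + κ₂ * ∑ i ∈ R.aS, mi R.Q (R.tb i) (X i) (R.Z i)) :
    ∀ (δ : Type) (X : ℕ → Ω → δ) (x : ℕ → (Ry × υ) × δ → ℝ × ℝ),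
      ∑ i ∈ R.aK, prE R.Q (fun ω => |R.κ ω - ((x i (R.Z i ω, X i ω)).1 + (x i (R.Z i ω, X i ω)).2 * R.tW ω)| ≤
        q2 (R.rI i + R.m)) ≤
        (5 * e₁ + 5 * (δ₀ * R.aK.card + e₂ / δ₀)) +
          (5 * κ₁ + 5 * κ₂ / δ₀) * ∑ i ∈ R.aK, mi R.Q (R.V i) (X i) (R.Z i) := by
  classical
  intro δ X x
  have hne : Nonempty Ω := by
    by_contra h
    rw [not_nonempty_iff] at h
    have := R.Q.sum_one
    rw [Finset.univ_eq_empty, Finset.sum_empty] at this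
    exact zero_ne_one this
  obtain ⟨ω₀⟩ := hne
  have hsub : R.aK ⊆ R.aS := by
    unfold aK
    exact Finset.filter_subset _ _
  -- the time, on `aK`
  have h2 : ∑ i ∈ R.aK, colp R.Q (R.tb i) (fun ω => (R.Z i ω, X i ω)) ≤
      e₂ + κ₂ * ∑ i ∈ R.aK, mi R.Q (R.tb i) (X i) (R.Z i) := by
    have k1 := htime δ fun i ω => if i ∈ R.aK then X i ω else X i ω₀
    have k2 : ∑ i ∈ R.aK, colp R.Q (R.tb i) (fun ω => (R.Z i ω, X i ω)) ≤
        ∑ i ∈ R.aS, colp R.Q (R.tb i) (fun ω => (R.Z i ω, if i ∈ R.aK then X i ω else X i ω₀)) := by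
      refine le_trans (le_of_eq (Finset.sum_congr rfl fun i hi => ?_))
        (Finset.sum_le_sum_of_subset_of_nonneg hsub fun i _ _ => colp_nonneg R.Q _ _)
      simp only [if_pos hi]
    have k3 : ∑ i ∈ R.aS, mi R.Q (R.tb i) (fun ω => if i ∈ R.aK then X i ω else X i ω₀) (R.Z i) =
        ∑ i ∈ R.aK, mi R.Q (R.tb i) (X i) (R.Z i) := by
      symm
      refine (Finset.sum_congr rfl fun i hi => ?_).trans (Finset.sum_subset hsub fun i _ hi => ?_)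
      · simp only [if_pos hi]
      · simp only [if_neg hi]
        exact mi_const R.Q _ _ _
    rw [k3] at k1
    exact k2.trans k1
  have hAh : ∀ i ∈ R.aK, R.C.a i + R.m ≤ R.h := by
    intro i hi
    have h3 := hsub hi
    unfold aS at h3
    rw [mem_filter, mem_range] at h3
    have h4 : R.C.a (i + 1) = R.C.a i + R.m := h3.2
    rw [← h4]
    exact (R.C.ha (by omega : i + 1 ≤ R.n + p.J)).trans hP.rA
  have htb : ∀ i ∈ R.aK, R.tb i = fun ω => fl1 (R.C.a i + R.m) (R.tW ω) := by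
    intro i hi
    funext ω
    unfold tb tW
    exact (fl1_rd' (hAh i hi) (R.t ω)).symm
  have hmi : ∀ i ∈ R.aK, mi R.Q (R.tb i) (X i) (R.Z i) ≤ mi R.Q (R.V i) (X i) (R.Z i) := by
    intro i hi
    refine mi_mono_left R.Q (X i) fun ω ω' hω hω' e => ?_
    obtain ⟨e1, e2⟩ := Prod.mk.inj e
    rw [htb i hi]
    rw [hV i hi ω hω, hV i hi ω' hω', ← e2] at e1
    obtain ⟨z, hz⟩ := hs i hi ω hω
    have h5 := ha i hi ω hω
    have h6 := tb_fn (m := R.m) (z := z) (by rw [h5]; exact hz) e1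
    rw [h5] at h6
    exact h6
  have h3 : ∑ i ∈ R.aK, mi R.Q (R.tb i) (X i) (R.Z i) ≤ ∑ i ∈ R.aK, mi R.Q (R.V i) (X i) (R.Z i) :=
    Finset.sum_le_sum hmi
  have h4 := line_X R.Q R.aK R.m R.C.a R.rI dd R.Z X R.tW R.κ hk ha hin (e₁ := e₁ + κ₁ * ∑ i ∈ R.aK,
      mi R.Q (R.V i) (X i) (R.Z i)) (e₂ := e₂ + κ₂ * ∑ i ∈ R.aK, mi R.Q (R.V i) (X i) (R.Z i)) hδ
    (fun s => by
      refine le_trans (le_of_eq (Finset.sum_congr rfl fun i hi => ?_)) (hcell δ X s)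
      refine le_antisymm (U.Path.prE_mono R.Q fun ω hω h => ?_) (U.Path.prE_mono R.Q fun ω hω h => ?_)
      · rw [hV i hi ω hω]; exact h
      · rw [hV i hi ω hω] at h; exact h)
    (by
      have h5 : ∑ i ∈ R.aK, colp R.Q (fun ω => fl1 (R.C.a i + R.m) (R.tW ω)) (fun ω => (R.Z i ω, X i ω)) =
          ∑ i ∈ R.aK, colp R.Q (R.tb i) (fun ω => (R.Z i ω, X i ω)) :=
        Finset.sum_congr rfl fun i hi => by rw [htb i hi]
      rw [h5]
      have := mul_le_mul_of_nonneg_left h3 hκ₂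
      linarith) x
  refine h4.trans (le_of_eq ?_)
  field_simp
  ring

end Run

end Vale.Agent.P106.U.S3
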