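import Vale.Agent.P106.U.H824.Gh

/-!
# P106 / U / S3 : light blocks given a further condition (helper404)

`Q ≪ P`, `V` a block, `F` what is known, `X` anything else.  `kap Q P V F + mi Q V X F` = relative entropy of the law of `V`
given `(F, X)` under `Q` with respect to the law of `V` given `F` under `P`.

* `ex_ratioG` : `E_Q [g(V, C) / Q(V | C)] ≤ M` if `∑_v g(v, c) ≤ M`.
* `kapX` : the relative entropy.
* `coll_leX` : collision probability given `(F, X)`.
* `ev_leX` : events `B (V) (F) (X)` which are rare for `P` given `F`, for every value of `X`.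
* `sum_collX`, `sum_evX`, `sum_heavyX` : sums over the steps of a path (449's `sum_kap_ov`, 824's greedy list).
-/

set_option autoImplicit false

namespace Vale.Agent.P106.U.S3

open Finset Vale.Agent.P127 Vale.Agent.P127.Stk Vale.Agent.P127.U Vale.Agent.P127.U.Nonat Vale.Agent.P127.U.YPat

section

variable {Ω : Type} [Fintype Ω] {S T U : Type*}

theorem ex_ratioG (Q : Law Ω) (V : Ω → S) (C : Ω → T) (g : S → T → ℝ) (hg : ∀ v c, 0 ≤ g v c) {M : ℝ}
    (hM : ∀ c, 0 < Q.pr C c → ∀ A : Finset S, ∑ v ∈ A, g v c ≤ M) :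
    Q.ex (fun ω => g (V ω) (C ω) / cp Q V C ω) ≤ M := by
  classical
  have h1 := Pin.ex_sp Q (fun ω => (V ω, C ω)) (fun q =>
    g q.1 q.2 / (Q.pr (fun ω => (V ω, C ω)) q / Q.pr C q.2))
  have h2 : Q.ex (fun ω => g (V ω) (C ω) / cp Q V C ω) = ∑ q ∈ Pin.sp Q (fun ω => (V ω, C ω)),
      Q.pr (fun ω => (V ω, C ω)) q * (g q.1 q.2 / (Q.pr (fun ω => (V ω, C ω)) q / Q.pr C q.2)) := h1
  rw [h2]
  have h3 : ∀ q ∈ Pin.sp Q (fun ω => (V ω, C ω)),
      Q.pr (fun ω => (V ω, C ω)) q * (g q.1 q.2 / (Q.pr (fun ω => (V ω, C ω)) q / Q.pr C q.2)) =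
      Q.pr C q.2 * g q.1 q.2 := by
    intro q hq
    have h4 : 0 < Q.pr (fun ω => (V ω, C ω)) q := Pin.sp_pos Q _ hq
    have h5 : 0 < Q.pr C q.2 := h4.trans_le (pr_pair_le Q V C q.1 q.2)
    field_simp
  rw [Finset.sum_congr rfl h3]
  set A := img V
  set B := img C
  have hsub : Pin.sp Q (fun ω => (V ω, C ω)) ⊆ A ×ˢ B := by
    intro q hq
    have h4 : 0 < Q.pr (fun ω => (V ω, C ω)) q := Pin.sp_pos Q _ hq
    by_contra hcon
    have h6 : q ∉ img (fun ω => (V ω, C ω)) := by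
      intro h7
      obtain ⟨ω, rfl⟩ := mem_img.1 h7
      exact hcon (Finset.mem_product.2 ⟨mem_img.2 ⟨ω, rfl⟩, mem_img.2 ⟨ω, rfl⟩⟩)
    rw [Pin.pr_zero_of_not_img Q _ h6] at h4
    exact lt_irrefl _ h4
  refine (Finset.sum_le_sum_of_subset_of_nonneg hsub fun q _ _ =>
    mul_nonneg (Q.pr_nonneg _ _) (hg _ _)).trans ?_
  rw [Finset.sum_product_right]
  have hM0 : 0 ≤ M := by
    obtain ⟨ω, hω⟩ : ∃ ω, 0 < Q.w ω := by
      by_contra hcon
      push Not at hcon
      have : (1 : ℝ) ≤ 0 := by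
        rw [← Q.sum_one]
        exact Finset.sum_nonpos fun ω _ => hcon ω
      linarith
    have := hM (C ω) (Q.pr_pos C hω) ∅
    simpa using this
  have h4 : ∀ c ∈ B, ∑ x ∈ A, Q.pr C c * g x c ≤ Q.pr C c * M := by
    intro c _
    rw [← Finset.mul_sum]
    rcases (Q.pr_nonneg C c).eq_or_lt with h0 | h0
    · rw [← h0, zero_mul, zero_mul]
    · exact mul_le_mul_of_nonneg_left (hM c h0 A) h0.le
  calc ∑ y ∈ B, ∑ x ∈ A, Q.pr C y * g x y ≤ ∑ y ∈ B, Q.pr C y * M := Finset.sum_le_sum h4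
    _ = (∑ y ∈ B, Q.pr C y) * M := by rw [Finset.sum_mul]
    _ ≤ 1 * M := mul_le_mul_of_nonneg_right (Pin.sum_pr_le_one Q C B) hM0
    _ = M := one_mul M

theorem hc_cp (Q : Law Ω) (V : Ω → S) (C : Ω → T) : hc Q V C = Q.ex (fun ω => -Real.log (cp Q V C ω)) := by
  unfold hc Law.H
  rw [← Q.ex_sub]
  refine Q.ex_congr fun ω hω => ?_
  have h1 := Q.pr_pos C hω
  have h2 := Q.pr_pos (fun ω => (V ω, C ω)) hω
  unfold cp
  rw [Real.log_div h2.ne' h1.ne']
  ring

variable {Q P : Law Ω}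

/-- the relative entropy given a further condition -/
theorem kapX (V : Ω → S) (F : Ω → T) (X : Ω → U) : kap Q P V F + mi Q V X F =
    Q.ex (fun ω => Real.log (cp Q V (fun ω => (F ω, X ω)) ω) - Real.log (cp P V F ω)) := by
  have h1 : hc Q V (fun ω => (X ω, F ω)) = hc Q V (fun ω => (F ω, X ω)) :=
    hc_congr Q (fun _ _ _ _ e => congrArg Prod.fst e) (fun _ _ _ _ e => congrArg Prod.fst e)
      (fun _ _ _ _ e => by
        simp only [Prod.mk.injEq] at e ⊢
        exact ⟨e.2, e.1⟩)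
      (fun _ _ _ _ e => by
        simp only [Prod.mk.injEq] at e ⊢
        exact ⟨e.2, e.1⟩)
  unfold mi kap
  rw [h1, hc_cp, hc_cp, ← Q.ex_sub, ← Q.ex_add]
  refine Q.ex_congr fun ω _ => ?_
  ring

/-- **small collision probability given a further condition** -/
theorem coll_leX (hQP : ∀ ω, 0 < Q.w ω → 0 < P.w ω) (V : Ω → S) (F : Ω → T) (X : Ω → U) {thr ε : ℝ}
    (ht : 0 < thr) (hε : thr < ε) (h : ∀ ω, 0 < Q.w ω → cp P V F ω ≤ thr) :
    colp Q V (fun ω => (F ω, X ω)) ≤ ε + (kap Q P V F + mi Q V X F + 1) / Real.log (ε / thr) := by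
  classical
  have hL : 0 < Real.log (ε / thr) := Real.log_pos (by rwa [one_lt_div ht])
  have hε0 : 0 < ε := ht.trans hε
  have h1 := ex_ratioG Q V (fun ω => (F ω, X ω)) (fun v c => P.pr (fun ω => (V ω, F ω)) (v, c.1) / P.pr F c.1)
    (fun v c => div_nonneg (P.pr_nonneg _ _) (P.pr_nonneg _ _)) (M := 1) (fun c _ A => by
      rw [← Finset.sum_div]
      exact div_le_one_of_le₀ (P.sum_pr_pair_le V F c.1 A) (P.pr_nonneg _ _))
  have h1' : Q.ex (fun ω => cp P V F ω / cp Q V (fun ω => (F ω, X ω)) ω) ≤ 1 := h1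
  have key : ∀ ω, 0 < Q.w ω → Real.log (ε / thr) * (cp Q V (fun ω => (F ω, X ω)) ω - ε) ≤
      (Real.log (cp Q V (fun ω => (F ω, X ω)) ω) - Real.log (cp P V F ω)) +
        cp P V F ω / cp Q V (fun ω => (F ω, X ω)) ω := by
    intro ω hω
    set q := cp Q V (fun ω => (F ω, X ω)) ω with hq
    set g := cp P V F ω with hg
    have a : 0 < g := cp_pos (P := P) V F (hQP ω hω)
    have b : 0 < q := cp_pos (P := Q) V _ hω
    have hq1 : q ≤ 1 := cp_le_one Q V _ ω
    have hgt : g ≤ thr := h ω hω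
    have h3 := Real.log_le_sub_one_of_pos (div_pos a b)
    rw [Real.log_div a.ne' b.ne'] at h3
    have hr : 0 ≤ g / q := (div_pos a b).le
    rcases lt_or_ge q ε with h4 | h4
    · have : Real.log (ε / thr) * (q - ε) ≤ 0 :=
        mul_nonpos_of_nonneg_of_nonpos hL.le (by linarith)
      linarith
    · have h5 : Real.log (ε / thr) ≤ Real.log q - Real.log g := by
        rw [Real.log_div hε0.ne' ht.ne']
        have := Real.log_le_log hε0 h4
        have := Real.log_le_log a hgt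
        linarith
      have h6 : Real.log (ε / thr) * (q - ε) ≤ Real.log (ε / thr) * 1 :=
        mul_le_mul_of_nonneg_left (by linarith) hL.le
      linarith
  have h2 := Q.ex_mono key
  rw [Q.ex_const_mul, Q.ex_sub, Q.ex_const, Q.ex_add, ← kapX V F X] at h2
  have h3 : Real.log (ε / thr) * (colp Q V (fun ω => (F ω, X ω)) - ε) ≤ kap Q P V F + mi Q V X F + 1 := by
    unfold colp
    linarith
  have h4 : colp Q V (fun ω => (F ω, X ω)) - ε ≤ (kap Q P V F + mi Q V X F + 1) / Real.log (ε / thr) := by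
    rw [le_div_iff₀ hL, mul_comm]
    exact h3
  linarith

open Classical in
/-- **rare events chosen from the further condition** -/
theorem ev_leX (hQP : ∀ ω, 0 < Q.w ω → 0 < P.w ω) (V : Ω → S) (F : Ω → T) (X : Ω → U) (B : S → T → U → Prop) {θ : ℝ}
    (h0 : 0 < θ) (h1 : θ < 1)
    (hB : ∀ f, 0 < P.pr F f → ∀ x, ∀ A : Finset S, (∀ v ∈ A, B v f x) →
      ∑ v ∈ A, P.pr (fun ω => (V ω, F ω)) (v, f) ≤ θ * P.pr F f) :
    prE Q (fun ω => B (V ω) (F ω) (X ω)) ≤ (kap Q P V F + mi Q V X F + 1) / Real.log (1 / θ) := by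
  have hL : 0 < Real.log (1 / θ) := Real.log_pos (by rwa [one_lt_div h0])
  set e : S → T → U → ℝ := fun v f x => if B v f x then 1 / θ else 1 with he
  have he0 : ∀ v f x, 0 < e v f x := fun v f x => by
    simp only [he]
    split_ifs
    · positivity
    · exact one_pos
  have r1 := ex_ratioG Q V (fun ω => (F ω, X ω))
    (fun v c => P.pr (fun ω => (V ω, F ω)) (v, c.1) / P.pr F c.1 * e v c.1 c.2)
    (fun v c => mul_nonneg (div_nonneg (P.pr_nonneg _ _) (P.pr_nonneg _ _)) (he0 _ _ _).le) (M := 2) (fun c hc A => by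
      have hPc : 0 < P.pr F c.1 := by
        by_contra hcon
        have h2 : Q.pr (fun ω => (F ω, X ω)) c ≤ 0 := by
          unfold Law.pr
          refine Finset.sum_nonpos fun ω hω => ?_
          rcases (Q.nn ω).eq_or_lt with h3 | h3
          · exact h3.symm.le
          · exfalso
            apply hcon
            have h4 : F ω = c.1 := by
              simp only [Finset.mem_filter, Finset.mem_univ, true_and] at hω
              rw [← hω]
            rw [← h4]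
            exact P.pr_pos F (hQP ω h3)
        linarith
      have h2 : ∑ v ∈ A, P.pr (fun ω => (V ω, F ω)) (v, c.1) / P.pr F c.1 * e v c.1 c.2 =
          ∑ v ∈ A.filter (fun v => B v c.1 c.2), P.pr (fun ω => (V ω, F ω)) (v, c.1) / P.pr F c.1 * (1 / θ) +
          ∑ v ∈ A.filter (fun v => ¬ B v c.1 c.2), P.pr (fun ω => (V ω, F ω)) (v, c.1) / P.pr F c.1 := by
        rw [← Finset.sum_filter_add_sum_filter_not A (fun v => B v c.1 c.2)]
        congr 1
        · refine Finset.sum_congr rfl fun v hv => ?_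
          simp only [he, if_pos (Finset.mem_filter.1 hv).2]
        · refine Finset.sum_congr rfl fun v hv => ?_
          simp only [he, if_neg (Finset.mem_filter.1 hv).2, mul_one]
      rw [h2, ← Finset.sum_mul, ← Finset.sum_div, ← Finset.sum_div]
      have h3 : (∑ v ∈ A.filter (fun v => B v c.1 c.2), P.pr (fun ω => (V ω, F ω)) (v, c.1)) / P.pr F c.1 ≤ θ := by
        rw [div_le_iff₀ hPc]
        exact hB c.1 hPc c.2 _ fun v hv => (Finset.mem_filter.1 hv).2
      have h4 : (∑ v ∈ A.filter (fun v => ¬ B v c.1 c.2), P.pr (fun ω => (V ω, F ω)) (v, c.1)) / P.pr F c.1 ≤ 1 :=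
        div_le_one_of_le₀ (P.sum_pr_pair_le V F c.1 _) (P.pr_nonneg _ _)
      have h5 := mul_le_mul_of_nonneg_right h3 (show (0 : ℝ) ≤ 1 / θ by positivity)
      have h6 : θ * (1 / θ) = 1 := by field_simp
      linarith)
  have r1' : Q.ex (fun ω => cp P V F ω * e (V ω) (F ω) (X ω) / cp Q V (fun ω => (F ω, X ω)) ω) ≤ 2 := r1
  have key : ∀ ω, 0 < Q.w ω → Real.log (1 / θ) * Law.ind (B (V ω) (F ω) (X ω)) + 1 ≤
      (Real.log (cp Q V (fun ω => (F ω, X ω)) ω) - Real.log (cp P V F ω)) +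
        cp P V F ω * e (V ω) (F ω) (X ω) / cp Q V (fun ω => (F ω, X ω)) ω := by
    intro ω hω
    have a : 0 < cp P V F ω := cp_pos (P := P) V F (hQP ω hω)
    have b : 0 < cp Q V (fun ω => (F ω, X ω)) ω := cp_pos (P := Q) V _ hω
    have c := he0 (V ω) (F ω) (X ω)
    have h3 := Real.log_le_sub_one_of_pos (div_pos (mul_pos a c) b)
    rw [Real.log_div (mul_pos a c).ne' b.ne', Real.log_mul a.ne' c.ne'] at h3
    have h4 : Real.log (e (V ω) (F ω) (X ω)) = Real.log (1 / θ) * Law.ind (B (V ω) (F ω) (X ω)) := by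
      by_cases hb : B (V ω) (F ω) (X ω)
      · simp only [he, if_pos hb, Law.ind_of hb, mul_one]
      · simp only [he, if_neg hb, Law.ind_not hb, mul_zero, Real.log_one]
    linarith
  have h2 := Q.ex_mono key
  rw [Q.ex_add, Q.ex_const_mul, Q.ex_const, Q.ex_add, ← kapX V F X] at h2
  have h3 : prE Q (fun ω => B (V ω) (F ω) (X ω)) = Q.ex (fun ω => Law.ind (B (V ω) (F ω) (X ω))) := by
    unfold prE Law.ex
    rw [Finset.sum_filter]
    refine Finset.sum_congr rfl fun ω _ => ?_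
    beta_reduce
    by_cases hb : B (V ω) (F ω) (X ω)
    · rw [if_pos hb, Law.ind_of hb, mul_one]
    · rw [if_neg hb, Law.ind_not hb, mul_zero]
  rw [h3, le_div_iff₀ hL, mul_comm]
  linarith

/-! ### sums over the steps of a path -/

variable {p : ℝ} (hp : 0 < p) (hd : ∀ ω, p * Q.w ω ≤ P.w ω) (F : ℕ → Ω → T) (n M : ℕ)
  (hF : ∀ i, ∀ ω ω', 0 < P.w ω → 0 < P.w ω' → F (i + 1) ω = F (i + 1) ω' → F i ω = F i ω')
  (A : Finset ℕ) (hA : A ⊆ range n) (V : ℕ → Ω → S)
  (hV : ∀ i ∈ A, ∀ ω ω', 0 < P.w ω → 0 < P.w ω' → F (i + M) ω = F (i + M) ω' → V i ω = V i ω')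

include hp hd hF hA hV

theorem sum_collX {thr ε : ℝ} (ht : 0 < thr) (hε : thr < ε) (h : ∀ i ∈ A, ∀ ω, 0 < Q.w ω → cp P (V i) (F i) ω ≤ thr)
    (X : ℕ → Ω → U) :
    ∑ i ∈ A, colp Q (V i) (fun ω => (F i ω, X i ω)) ≤
      (A.card * ε + (M * Real.log (1 / p) + A.card) / Real.log (ε / thr)) +
        1 / Real.log (ε / thr) * ∑ i ∈ A, mi Q (V i) (X i) (F i) := by
  have hQP : ∀ ω, 0 < Q.w ω → 0 < P.w ω := fun ω h => (mul_pos hp h).trans_le (hd ω)
  have hL : 0 < Real.log (ε / thr) := Real.log_pos (by rwa [one_lt_div ht])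
  have h1 := H449.sum_kap_ov hp hd F n M hF A hA V hV
  have h2 : ∑ i ∈ A, colp Q (V i) (fun ω => (F i ω, X i ω)) ≤
      ∑ i ∈ A, (ε + (kap Q P (V i) (F i) + mi Q (V i) (X i) (F i) + 1) / Real.log (ε / thr)) :=
    Finset.sum_le_sum fun i hi => coll_leX hQP (V i) (F i) (X i) ht hε (h i hi)
  have h3 : ∑ i ∈ A, (ε + (kap Q P (V i) (F i) + mi Q (V i) (X i) (F i) + 1) / Real.log (ε / thr)) =
      A.card * ε + (∑ i ∈ A, kap Q P (V i) (F i) + ∑ i ∈ A, mi Q (V i) (X i) (F i) + A.card) / Real.log (ε / thr) := by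
    rw [Finset.sum_add_distrib, Finset.sum_const, nsmul_eq_mul, ← Finset.sum_div, Finset.sum_add_distrib,
      Finset.sum_add_distrib, Finset.sum_const, nsmul_eq_mul, mul_one]
  have h4 : (∑ i ∈ A, kap Q P (V i) (F i) + ∑ i ∈ A, mi Q (V i) (X i) (F i) + A.card) / Real.log (ε / thr) ≤
      (M * Real.log (1 / p) + ∑ i ∈ A, mi Q (V i) (X i) (F i) + A.card) / Real.log (ε / thr) := by
    gcongr
  have h5 : (M * Real.log (1 / p) + ∑ i ∈ A, mi Q (V i) (X i) (F i) + A.card) / Real.log (ε / thr) =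
      (M * Real.log (1 / p) + A.card) / Real.log (ε / thr) +
        1 / Real.log (ε / thr) * ∑ i ∈ A, mi Q (V i) (X i) (F i) := by
    ring
  linarith

theorem sum_evX {θ : ℝ} (h0 : 0 < θ) (h1 : θ < 1) (X : ℕ → Ω → U) (B : ℕ → S → T → U → Prop)
    (hB : ∀ i ∈ A, ∀ f, 0 < P.pr (F i) f → ∀ x, ∀ A' : Finset S, (∀ v ∈ A', B i v f x) →
      ∑ v ∈ A', P.pr (fun ω => (V i ω, F i ω)) (v, f) ≤ θ * P.pr (F i) f) :
    ∑ i ∈ A, prE Q (fun ω => B i (V i ω) (F i ω) (X i ω)) ≤
      (M * Real.log (1 / p) + A.card) / Real.log (1 / θ) +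
        1 / Real.log (1 / θ) * ∑ i ∈ A, mi Q (V i) (X i) (F i) := by
  have hQP : ∀ ω, 0 < Q.w ω → 0 < P.w ω := fun ω h => (mul_pos hp h).trans_le (hd ω)
  have hL : 0 < Real.log (1 / θ) := Real.log_pos (by rwa [one_lt_div h0])
  have h2 := H449.sum_kap_ov hp hd F n M hF A hA V hV
  have h3 : ∑ i ∈ A, prE Q (fun ω => B i (V i ω) (F i ω) (X i ω)) ≤
      ∑ i ∈ A, (kap Q P (V i) (F i) + mi Q (V i) (X i) (F i) + 1) / Real.log (1 / θ) :=
    Finset.sum_le_sum fun i hi => ev_leX hQP (V i) (F i) (X i) (B i) h0 h1 (hB i hi)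
  have h4 : ∑ i ∈ A, (kap Q P (V i) (F i) + mi Q (V i) (X i) (F i) + 1) / Real.log (1 / θ) =
      (∑ i ∈ A, kap Q P (V i) (F i) + ∑ i ∈ A, mi Q (V i) (X i) (F i) + A.card) / Real.log (1 / θ) := by
    rw [← Finset.sum_div, Finset.sum_add_distrib, Finset.sum_add_distrib, Finset.sum_const, nsmul_eq_mul, mul_one]
  have h5 : (∑ i ∈ A, kap Q P (V i) (F i) + ∑ i ∈ A, mi Q (V i) (X i) (F i) + A.card) / Real.log (1 / θ) ≤
      (M * Real.log (1 / p) + ∑ i ∈ A, mi Q (V i) (X i) (F i) + A.card) / Real.log (1 / θ) := by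
    gcongr
  have h6 : (M * Real.log (1 / p) + ∑ i ∈ A, mi Q (V i) (X i) (F i) + A.card) / Real.log (1 / θ) =
      (M * Real.log (1 / p) + A.card) / Real.log (1 / θ) +
        1 / Real.log (1 / θ) * ∑ i ∈ A, mi Q (V i) (X i) (F i) := by
    ring
  linarith

omit hp hd hF hA hV in
/-- mass under `P` given `F = f` of the values of `V` in a finite set: as the mass of an event -/
theorem sum_pr_ms (V : Ω → S) (F : Ω → T) (A : Finset S) (f : T) (B : Ω → Prop)
    (hB : ∀ ω, 0 < P.w ω → F ω = f → V ω ∈ A → B ω) :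
    ∑ v ∈ A, P.pr (fun ω => (V ω, F ω)) (v, f) ≤ Gh.ms P F f B := by
  classical
  have h1 : ∑ v ∈ A, P.pr (fun ω => (V ω, F ω)) (v, f) = Gh.ms P F f (fun ω => V ω ∈ A) := by
    unfold Law.pr Gh.ms
    simp only [Finset.sum_filter]
    rw [Finset.sum_comm]
    refine Finset.sum_congr rfl fun ω _ => ?_
    by_cases h1 : F ω = f
    · by_cases h2 : V ω ∈ A
      · rw [if_pos ⟨h1, h2⟩, Finset.sum_eq_single (V ω)]
        · rw [if_pos (show (V ω, F ω) = (V ω, f) by rw [h1])]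
        · intro v _ hv
          rw [if_neg]
          intro e
          exact hv (Prod.mk.inj e).1.symm
        · intro hcon
          exact absurd h2 hcon
      · rw [if_neg (fun h => h2 h.2)]
        refine Finset.sum_eq_zero fun v hv => ?_
        rw [if_neg]
        intro e
        exact h2 ((Prod.mk.inj e).1 ▸ hv)
    · rw [if_neg (fun h => h1 h.1)]
      refine Finset.sum_eq_zero fun v _ => ?_
      rw [if_neg]
      intro e
      exact h1 (Prod.mk.inj e).2
  rw [h1]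
  exact Gh.ms_mono P F f hB

/-- **heavy sets chosen from the further condition** : at the steps `i ∈ A` there is no heavy set for `P` given `F i` on the
support of `Q` -/
theorem sum_heavyX {ι : Type*} {mem : ι → S → Prop} {θ : ℝ} (h0 : 0 < θ) (h1 : θ < 1)
    (hn : ∀ i ∈ A, ∀ ω, 0 < Q.w ω → Gh.idx P (V i) (F i) mem θ ω = none) (X : ℕ → Ω → U) (s : ℕ → T × U → ι) :
    ∑ i ∈ A, prE Q (fun ω => mem (s i (F i ω, X i ω)) (V i ω)) ≤
      (M * Real.log (1 / p) + A.card) / Real.log (1 / θ) +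
        1 / Real.log (1 / θ) * ∑ i ∈ A, mi Q (V i) (X i) (F i) := by
  classical
  have h2 := sum_evX (P := P) (Q := Q) hp hd F n M hF A hA V hV h0 h1 X
    (fun i v f x => mem (s i (f, x)) v ∧ Gh.ix mem (Gh.gl P (V i) (F i) mem θ f) v = none)
    (fun i _ f hf x A' hA' => by
      refine (sum_pr_ms (P := P) (V i) (F i) A' f
        (fun ω => Gh.ix mem (Gh.gl P (V i) (F i) mem θ f) (V i ω) = none ∧ mem (s i (f, x)) (V i ω))
        (fun ω _ _ hv => ⟨(hA' _ hv).2, (hA' _ hv).1⟩)).trans ?_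
      exact ((Gh.gl_spec (mem := mem) (V := V i) h0 hf).2 (s i (f, x))).le)
  refine le_trans (Finset.sum_le_sum fun i hi => ?_) h2
  refine Vale.Agent.P127.U.Path.prE_mono Q fun ω hω hm' => ?_
  refine ⟨hm', ?_⟩
  have := hn i hi ω hω
  unfold Gh.idx at this
  exact this

end

end Vale.Agent.P106.U.S3
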