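import Vale.Agent.P106.U.S3.Good

/-!
# P106 / U / S3 : few exceptional time steps, with a further letter (helper404)

* `Run.GoodX p ε b X i` : `Run.Good` with the condition `(Z i, (cell i b, X i))`.
* `Run.GoodX.good`.
* `pGoodX` : the number of exceptional steps, if `X i` costs at most `x` given the cell and the ray side.
-/

set_option autoImplicit false

namespace Vale.Agent.P106.U.S3

open Finset Vale.Agent.P127 Vale.Agent.P127.Stk Vale.Agent.P127.U Vale.Agent.P106.W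
open Vale.Agent.P106.K (Ry RyOk bl Bin)
open Vale.Agent.P127.U.Mic (colp)
open Vale.Agent.P127.U.CellD (q2 rd)
open Vale.Agent.P106.U.Cell (Pth Ray)

/-- a coarser condition -/
theorem noStrip_of {Ω : Type} [Fintype Ω] {T T' : Type} {Q : Law Ω} {t κ : Ω → ℝ} {Z : Ω → T} {Z' : Ω → T'} {w ε : ℝ}
    (f : T' → T) (h : ∀ ω, Z ω = f (Z' ω)) (hn : NoStrip Q t κ Z' w ε) : NoStrip Q t κ Z w ε := by
  intro x
  have h1 := hn fun z => x (f z)
  simpa only [← h] using h1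

namespace Run

variable {Ω : Type} [Fintype Ω] {τ υ : Type}

/-- **the time step `i` is good at the cap `b`** given a further letter -/
structure GoodX (R : Run Ω τ υ) (p : Num) (ε : ℝ) (b : ℕ) {δ : Type} (X : ℕ → Ω → δ) (i : ℕ) : Prop where
  isA : R.IsA i
  time : colp R.Q (R.tb i) (fun ω => (R.Z i ω, (R.C.cell i b ω, X i ω))) ≤ ε
  phi : R.C.rf i < p.QF → R.C.rf i < R.rI i + p.B₁ →
    colp R.Q (R.fb i) (fun ω => (R.Z i ω, (R.C.cell i b ω, X i ω))) ≤ ε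
  line : R.rI i < R.C.rf i → NoStrip R.Q R.tW R.κ (fun ω => (R.Z i ω, (R.C.cell i b ω, X i ω))) (q2 (R.rI i + R.m)) ε

variable {R : Run Ω τ υ} {p : Num} {ε : ℝ} {b : ℕ} {δ : Type} {X : ℕ → Ω → δ} {i : ℕ}

theorem GoodX.good (h : R.GoodX p ε b X i) : R.Good p ε b i where
  isA := h.isA
  time := (Mic.colp_mono_cond R.Q _ fun ω ω' _ _ e => by
    simp only [Prod.mk.injEq] at e ⊢
    exact ⟨e.1, e.2.1⟩).trans h.time
  phi := fun h1 h2 => (Mic.colp_mono_cond R.Q _ fun ω ω' _ _ e => by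
    simp only [Prod.mk.injEq] at e ⊢
    exact ⟨e.1, e.2.1⟩).trans (h.phi h1 h2)
  line := fun h1 => noStrip_of (fun z => (z.1, z.2.1)) (fun _ => rfl) (h.line h1)

/-- a coarser further letter -/
theorem GoodX.mono {δ' : Type} {X' : ℕ → Ω → δ'} (f : δ → δ') (hf : ∀ ω, X' i ω = f (X i ω)) (h : R.GoodX p ε b X i) :
    R.GoodX p ε b X' i where
  isA := h.isA
  time := (Mic.colp_mono_cond R.Q _ fun ω ω' _ _ e => by
    simp only [Prod.mk.injEq, hf] at e ⊢
    exact ⟨e.1, e.2.1, by rw [e.2.2]⟩).trans h.time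
  phi := fun h1 h2 => (Mic.colp_mono_cond R.Q _ fun ω ω' _ _ e => by
    simp only [Prod.mk.injEq, hf] at e ⊢
    exact ⟨e.1, e.2.1, by rw [e.2.2]⟩).trans (h.phi h1 h2)
  line := fun h1 => noStrip_of (fun z => (z.1, (z.2.1, f z.2.2))) (fun ω => by simp only [hf]) (h.line h1)

end Run

section

variable {Ω : Type} [Fintype Ω] {S T U V : Type*}

/-- price of a further letter -/
theorem mi_pair_le (Q : Law Ω) (B : Ω → S) (C : Ω → T) (X : Ω → U) (Z : Ω → V) {x : ℝ}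
    (hx : Stk.hc Q X (fun ω => (C ω, Z ω)) ≤ x) : mi Q B (fun ω => (C ω, X ω)) Z ≤ mi Q B C Z + x := by
  rw [mi_pair Q B C X Z]
  have h1 : mi Q B X (fun ω => (C ω, Z ω)) ≤ Stk.hc Q X (fun ω => (C ω, Z ω)) := by
    rw [mi_symm]
    unfold mi
    have := hc_nonneg Q X (fun ω => (B ω, C ω, Z ω))
    linarith
  linarith

end

open Classical in
/-- **few exceptional time steps, with a further letter** -/
theorem pGoodX {Ω : Type} [Fintype Ω] {τ υ : Type} (R : Run Ω τ υ) (p : Run.Num) (K c' g' gU e κ₀ ε : ℝ)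
    (h : R.Ok p K c' g' gU) (hL : R.Light p e κ₀) (hε : 0 < ε) (hκ : 0 ≤ κ₀) (b : ℕ) {δ : Type} (X : ℕ → Ω → δ) {x : ℝ}
    (hx0 : 0 ≤ x) (hx : ∀ i ∈ R.aS, Stk.hc R.Q (X i) (fun ω => (R.C.cell i b ω, R.Z i ω)) ≤ x) :
    (((R.aS.filter fun i => ¬ R.GoodX p ε b X i).card : ℕ) : ℝ) * ε ≤
      3 * e + κ₀ * ((4 * p.J + 1) * g' + 3 * (R.aS.card * x)) := by
  set Y : ℕ → Ω → (τ × Pth.Dg) × δ := fun i ω => (R.C.cell i b ω, X i ω) with hY
  set B1 := R.aS.filter fun i => ε < colp R.Q (R.tb i) (fun ω => (R.Z i ω, Y i ω)) with hB1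
  set B2 := (R.aF p).filter fun i => ε < colp R.Q (R.fb i) (fun ω => (R.Z i ω, Y i ω)) with hB2
  set B3 := R.aK.filter fun i => ¬ NoStrip R.Q R.tW R.κ (fun ω => (R.Z i ω, Y i ω)) (q2 (R.rI i + R.m)) ε
    with hB3
  set Bd := R.aS.filter fun i => ¬ R.GoodX p ε b X i with hBd
  have hsub : Bd ⊆ B1 ∪ (B2 ∪ B3) := by
    intro i hi
    obtain ⟨hi1, hi2⟩ := Finset.mem_filter.1 hi
    have hA : R.IsA i := (Finset.mem_filter.1 hi1).2
    by_contra hcon
    simp only [Finset.mem_union, not_or] at hcon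
    obtain ⟨c1, c2, c3⟩ := hcon
    refine hi2 ⟨hA, ?_, ?_, ?_⟩
    · by_contra hx
      exact c1 (Finset.mem_filter.2 ⟨hi1, not_le.1 hx⟩)
    · intro x1 x2
      by_contra hx
      exact c2 (Finset.mem_filter.2 ⟨Finset.mem_filter.2 ⟨hi1, x1, x2⟩, not_le.1 hx⟩)
    · intro x1
      by_contra hx
      exact c3 (Finset.mem_filter.2 ⟨Finset.mem_filter.2 ⟨hi1, x1⟩, hx⟩)
  have hcard : (Bd.card : ℝ) ≤ B1.card + (B2.card + B3.card) := by
    have h1 := (Finset.card_le_card hsub).trans ((Finset.card_union_le _ _).trans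
      (Nat.add_le_add_left (Finset.card_union_le _ _) _))
    exact_mod_cast h1
  have hF : R.aF p ⊆ R.aS := Finset.filter_subset _ _
  have hK : R.aK ⊆ R.aS := Finset.filter_subset _ _
  -- the price of the further letter
  have hpr : ∀ (A : Finset ℕ) (hA : A ⊆ R.aS) {S : Type} (B : ℕ → Ω → S),
      ∑ i ∈ A, mi R.Q (B i) (Y i) (R.Z i) ≤ ∑ i ∈ A, mi R.Q (B i) (R.C.cell i b) (R.Z i) + R.aS.card * x := by
    intro A hA S B
    have h1 : ∑ i ∈ A, mi R.Q (B i) (Y i) (R.Z i) ≤ ∑ i ∈ A, (mi R.Q (B i) (R.C.cell i b) (R.Z i) + x) :=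
      Finset.sum_le_sum fun i hi => mi_pair_le R.Q (B i) (R.C.cell i b) (X i) (R.Z i) (hx i (hA hi))
    rw [Finset.sum_add_distrib, Finset.sum_const, nsmul_eq_mul] at h1
    have h2 : (A.card : ℝ) * x ≤ R.aS.card * x :=
      mul_le_mul_of_nonneg_right (by exact_mod_cast Finset.card_le_card hA) hx0
    linarith
  have k1 : (B1.card : ℝ) * ε ≤ e + κ₀ * (g' + R.aS.card * x) := by
    have h1 := hL.time _ Y
    have h2 : (B1.card : ℝ) * ε ≤ ∑ i ∈ R.aS, colp R.Q (R.tb i) (fun ω => (R.Z i ω, Y i ω)) := by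
      calc (B1.card : ℝ) * ε = ∑ _i ∈ B1, ε := by rw [Finset.sum_const, nsmul_eq_mul]
        _ ≤ ∑ i ∈ B1, colp R.Q (R.tb i) (fun ω => (R.Z i ω, Y i ω)) :=
          Finset.sum_le_sum fun i hi => (Finset.mem_filter.1 hi).2.le
        _ ≤ _ := Finset.sum_le_sum_of_subset_of_nonneg (Finset.filter_subset _ _)
          fun i _ _ => Mic.colp_nonneg R.Q _ _
    have h3 := mul_le_mul_of_nonneg_left ((hpr R.aS subset_rfl R.tb).trans
      (add_le_add (h.sum_tb b) le_rfl)) hκ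
    linarith
  have k2 : (B2.card : ℝ) * ε ≤ e + κ₀ * (2 * p.J * g' + R.aS.card * x) := by
    have h1 := hL.phi _ Y
    have h2 : (B2.card : ℝ) * ε ≤ ∑ i ∈ R.aF p, colp R.Q (R.fb i) (fun ω => (R.Z i ω, Y i ω)) := by
      calc (B2.card : ℝ) * ε = ∑ _i ∈ B2, ε := by rw [Finset.sum_const, nsmul_eq_mul]
        _ ≤ ∑ i ∈ B2, colp R.Q (R.fb i) (fun ω => (R.Z i ω, Y i ω)) :=
          Finset.sum_le_sum fun i hi => (Finset.mem_filter.1 hi).2.le
        _ ≤ _ := Finset.sum_le_sum_of_subset_of_nonneg (Finset.filter_subset _ _)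
          fun i _ _ => Mic.colp_nonneg R.Q _ _
    have h3 := mul_le_mul_of_nonneg_left ((hpr (R.aF p) hF R.fb).trans
      (add_le_add (h.sum_aS b (Y := R.fb) (R.aF p) hF (fun i hi => by
      obtain ⟨c1, c2, c3⟩ := Finset.mem_filter.1 hi
      obtain ⟨d1, d2⟩ := Finset.mem_filter.1 c1
      exact h.Jf i (Finset.mem_range.1 d1) d2 c2 c3)) le_rfl)) hκ
    linarith
  have k3 : (B3.card : ℝ) * ε ≤ e + κ₀ * (2 * p.J * g' + R.aS.card * x) := by
    have hex : ∀ i, ∃ y : ((Ry × υ) × ((τ × Pth.Dg) × δ)) → ℝ × ℝ, i ∈ B3 →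
        ε < prE R.Q (fun ω => |R.κ ω - ((y (R.Z i ω, Y i ω)).1 +
          (y (R.Z i ω, Y i ω)).2 * R.tW ω)| ≤ q2 (R.rI i + R.m)) := by
      intro i
      by_cases hi : i ∈ B3
      · have h1 := (Finset.mem_filter.1 hi).2
        unfold NoStrip at h1
        push Not at h1
        obtain ⟨y, hy⟩ := h1
        exact ⟨y, fun _ => hy⟩
      · exact ⟨fun _ => (0, 0), fun h' => absurd h' hi⟩
    choose y hy using hex
    have h1 := hL.line _ Y y
    have h2 : (B3.card : ℝ) * ε ≤ ∑ i ∈ R.aK, prE R.Q (fun ω => |R.κ ω - ((y i (R.Z i ω, Y i ω)).1 +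
          (y i (R.Z i ω, Y i ω)).2 * R.tW ω)| ≤ q2 (R.rI i + R.m)) := by
      calc (B3.card : ℝ) * ε = ∑ _i ∈ B3, ε := by rw [Finset.sum_const, nsmul_eq_mul]
        _ ≤ ∑ i ∈ B3, prE R.Q (fun ω => |R.κ ω - ((y i (R.Z i ω, Y i ω)).1 +
          (y i (R.Z i ω, Y i ω)).2 * R.tW ω)| ≤ q2 (R.rI i + R.m)) :=
          Finset.sum_le_sum fun i hi => (hy i hi).le
        _ ≤ _ := Finset.sum_le_sum_of_subset_of_nonneg (Finset.filter_subset _ _)
          fun i _ _ => Finset.sum_nonneg fun ω _ => R.Q.nn ω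
    have h3 := mul_le_mul_of_nonneg_left ((hpr R.aK hK R.V).trans
      (add_le_add (h.sum_aS b (Y := R.V) R.aK hK (fun i hi => by
      obtain ⟨c1, c2⟩ := Finset.mem_filter.1 hi
      obtain ⟨d1, d2⟩ := Finset.mem_filter.1 c1
      exact h.JV i (Finset.mem_range.1 d1) d2 c2)) le_rfl)) hκ
    linarith
  have key : (Bd.card : ℝ) * ε ≤ (B1.card + (B2.card + B3.card)) * ε :=
    mul_le_mul_of_nonneg_right hcard hε.le
  calc (Bd.card : ℝ) * ε ≤ (B1.card + (B2.card + B3.card)) * ε := key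
    _ = B1.card * ε + (B2.card * ε + B3.card * ε) := by ring
    _ ≤ (e + κ₀ * (g' + R.aS.card * x)) +
        ((e + κ₀ * (2 * p.J * g' + R.aS.card * x)) + (e + κ₀ * (2 * p.J * g' + R.aS.card * x))) :=
      add_le_add k1 (add_le_add k2 k3)
    _ = 3 * e + κ₀ * ((4 * p.J + 1) * g' + 3 * (R.aS.card * x)) := by ring

end Vale.Agent.P106.U.S3
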